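import Vale.Agent.P365.Comp.Step

set_option linter.all false

/-!
# P365 / Comp / Reg: regions of the square lattice; the two-layer step, closing and transport.
-/

namespace P365L.Comp

open MeasureTheory ProbabilityTheory Complex Matrix P365S6
open P365L
open scoped ENNReal

section general

variable {ι : Type*} [Fintype ι] [DecidableEq ι]
variable {A A' : Matrix ι ι ℝ} {γ τ p : ℝ} {ζ : ℂ}

/-- transport to a decoupled block -/
theorem QE_block {κ : Type*} [Fintype κ] [DecidableEq κ] (hA : A.IsSymm) (hγ : 0 < γ)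
    (hζ : 0 < ζ.im) (ρ : Measure ℝ) [IsProbabilityMeasure ρ] (e : κ ↪ ι)
    (hD : Dec A (fun x => x ∈ Set.range e)) {T : Finset ι} {T' : Finset κ}
    (hT : ∀ k, e k ∈ T ↔ k ∈ T') (S B : Finset κ) :
    QE A γ ζ ρ p T (S.map e) (B.map e) = QE (A.submatrix e e) γ ζ ρ p T' S B := by
  have h1 : ∀ w c : ι → ℝ, hs (GT A γ w ζ T c) (S.map e) (B.map e) =
      hs (GT (A.submatrix e e) γ (fun k => w (e k)) ζ T' (fun k => c (e k))) S B := by
    intro w c
    unfold hs
    rw [Finset.sum_map]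
    refine Finset.sum_congr rfl fun a _ => ?_
    rw [Finset.sum_map]
    refine Finset.sum_congr rfl fun b _ => ?_
    have h2 := Gr_block hA (fun x => Wt_im_neg (U := w) hγ hζ T c x) e e.injective hD a b
    have h3 : (fun k => Wt γ w ζ T c (e k)) =
        Wt γ (fun k => w (e k)) ζ T' (fun k => c (e k)) := by
      funext k
      unfold Wt
      simp only [hT]
    rw [h3] at h2
    rw [GT, GT, h2]
  unfold QE
  simp_rw [h1]
  have h4 : ∀ w : ι → ℝ, ∫⁻ c, ENNReal.ofReal ((hs (GT (A.submatrix e e) γ (fun k => w (e k)) ζ T'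
        (fun k => c (e k))) S B) ^ (p / 2)) ∂(mu ι) =
      ∫⁻ c, ENNReal.ofReal ((hs (GT (A.submatrix e e) γ (fun k => w (e k)) ζ T' c) S B) ^ (p / 2))
        ∂(mu κ) := fun w =>
    (measurePreserving_marg nu e e.injective).lintegral_comp
      (f := fun c => ENNReal.ofReal ((hs (GT (A.submatrix e e) γ (fun k => w (e k)) ζ T' c) S B)
        ^ (p / 2))) (measurable_F _ T' S B)
  simp_rw [h4]
  exact (measurePreserving_marg ρ e e.injective).lintegral_comp
    (f := fun w => ∫⁻ c, ENNReal.ofReal ((hs (GT (A.submatrix e e) γ w ζ T' c) S B) ^ (p / 2))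
      ∂(mu κ)) (measurable_Fint T' S B)

theorem QE_comm (hA : A.IsSymm) (ρ : Measure ℝ) (T S B : Finset ι) :
    QE A γ ζ ρ p T S B = QE A γ ζ ρ p T B S := by
  unfold QE
  refine lintegral_congr fun w => lintegral_congr fun c => ?_
  rw [hs_comm (fun x y => GT_symm hA T c x y)]

/-- only the part of the target inside the block matters -/
theorem QE_restrict (hA : A.IsSymm) (hγ : 0 < γ) (hζ : 0 < ζ.im) (ρ : Measure ℝ) {R : ι → Prop}
    [DecidablePred R] (hD : Dec A R) (T : Finset ι) {S : Finset ι} (hS : ∀ a ∈ S, R a)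
    (B : Finset ι) :
    QE A γ ζ ρ p T S B = QE A γ ζ ρ p T S (B.filter R) := by
  unfold QE
  refine lintegral_congr fun w => lintegral_congr fun c => ?_
  have h1 : hs (GT A γ w ζ T c) S B = hs (GT A γ w ζ T c) S (B.filter R) := by
    unfold hs
    refine Finset.sum_congr rfl fun a ha => ?_
    symm
    refine Finset.sum_subset (Finset.filter_subset _ _) fun b hb hb' => ?_
    have h2 : ¬ R b := fun h => hb' (Finset.mem_filter.2 ⟨hb, h⟩)
    rw [GT, Gr_dec hA (fun x => Wt_im_neg (U := w) hγ hζ T c x) hD (Or.inl ⟨hS a ha, h2⟩)]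
    simp
  rw [h1]

theorem QE_mono (hp : 0 < p) (ρ : Measure ℝ) (T : Finset ι) {S S' B B' : Finset ι} (hS : S ⊆ S')
    (hB : B ⊆ B') : QE A γ ζ ρ p T S B ≤ QE A γ ζ ρ p T S' B' := by
  unfold QE
  exact lintegral_mono fun w => lintegral_mono fun c => ENNReal.ofReal_le_ofReal
    (Real.rpow_le_rpow (hs_nonneg _ _ _) (hs_mono _ hS hB) (by positivity))

/-- subadditivity in the source -/
theorem QE_le_sum (hp : 0 < p) (hp1 : p < 1) (ρ : Measure ℝ) (T S B : Finset ι) :
    QE A γ ζ ρ p T S B ≤ ∑ a ∈ S, QE A γ ζ ρ p T {a} B := by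
  unfold QE
  rw [← lintegral_finset_sum _ fun a _ => measurable_Fint T {a} B]
  refine lintegral_mono fun w => ?_
  rw [← lintegral_finset_sum _ fun a _ => measurable_F w T {a} B]
  refine lintegral_mono fun c => ?_
  rw [← ENNReal.ofReal_sum_of_nonneg fun a _ => Real.rpow_nonneg (hs_nonneg _ _ _) _]
  refine ENNReal.ofReal_le_ofReal ?_
  have h1 : hs (GT A γ w ζ T c) S B = ∑ a ∈ S, hs (GT A γ w ζ T c) {a} B := by
    unfold hs
    simp only [Finset.sum_singleton]
  rw [h1]
  have hp2 : 0 ≤ p / 2 := by positivity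
  have hp3 : p / 2 ≤ 1 := by linarith
  have key : ∀ (s : Finset ι) (f : ι → ℝ), (∀ a, 0 ≤ f a) →
      (∑ a ∈ s, f a) ^ (p / 2) ≤ ∑ a ∈ s, f a ^ (p / 2) := by
    intro s f hf
    induction s using Finset.induction_on with
    | empty => simp [Real.zero_rpow (show p / 2 ≠ 0 by positivity)]
    | insert a s ha ih =>
      rw [Finset.sum_insert ha, Finset.sum_insert ha]
      exact (Real.rpow_add_le_add_rpow (hf a) (Finset.sum_nonneg fun _ _ => hf _) hp2 hp3).trans
        (by linarith)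
  exact key S _ fun a => hs_nonneg _ _ _

/-- amplitudes into an absorbing set starting in it: the HS norm of a column is at most `1/γ` -/
theorem hs_column_le (hA : A.IsSymm) (hγ : 0 < γ) (hζ : 0 < ζ.im) (w c : ι → ℝ) {T L : Finset ι}
    (hL : Disjoint L T) {z : ι} (hz : z ∈ L) :
    hs (GT A γ w ζ T c) L {z} ≤ 1 / γ ^ 2 := by
  have h1 := layer_solve hA (fun x => Wt_im_neg (U := w) hγ hζ T c x) hγ L
    (fun x hx => Wt_abs_le hγ hζ w c T (Finset.disjoint_left.1 hL hx))
    (fun x => if x = z then 1 else 0) (by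
      intro x hx
      rw [if_neg]
      rintro rfl
      exact hx hz)
  have h2 : ∑ x ∈ L, ‖(if x = z then (1 : ℂ) else 0)‖ ^ 2 = 1 := by
    rw [Finset.sum_eq_single z]
    · simp
    · intro x _ hx
      simp [hx]
    · intro h
      exact absurd hz h
  rw [h2, mul_one] at h1
  refine le_trans (le_of_eq ?_) h1
  unfold hs
  refine Finset.sum_congr rfl fun x _ => ?_
  rw [Finset.sum_singleton, Matrix.mulVec, dotProduct, Finset.sum_eq_single z]
  · rw [if_pos rfl, mul_one]
    rfl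
  · intro y _ hy
    rw [if_neg hy, mul_zero]
  · intro h
    exact absurd (Finset.mem_univ z) h

/-- the a priori bound -/
noncomputable def K0 (γ p : ℝ) : ℝ := (1 / γ) ^ p + CK p * (2 * γ) ^ p * (1 / γ) ^ p * (1 / γ) ^ p

theorem K0_nonneg (hγ : 0 < γ) (hp : 0 < p) (hp1 : p < 1) : 0 ≤ K0 γ p := by
  have := CK_nonneg hp hp1
  unfold K0
  positivity

/-- a priori bound: single source `z ∈ L` (closed), targets in a set `B` which is absorbing after
opening `L` -/
theorem QE_apriori (hA : A.IsSymm) (hγ : 0 < γ) (hζ : 0 < ζ.im) (hp : 0 < p) (hp1 : p < 1)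
    (ρ : Measure ℝ) [IsProbabilityMeasure ρ] {T L : Finset ι} (hL : L ⊆ T) {z : ι} (hz : z ∈ L)
    {B : Finset ι} (hB : Disjoint B (T \ L)) (hLB : ∃ y, L ⊆ {z, y} ∧ (L ⊆ {z} ∨ B ⊆ {y} ∧ y ∈ L)) :
    QE A γ ζ ρ p T {z} B ≤ ENNReal.ofReal (K0 γ p) := by
  obtain ⟨y, hLy, hcase⟩ := hLB
  rw [QE_mix ρ T L {z} B]
  have hbd : ∀ w c : ι → ℝ, ∫⁻ c', ENNReal.ofReal
      ((hs (GT A γ w ζ T (mix L c' c)) {z} B) ^ (p / 2)) ∂(mu ι) ≤ ENNReal.ofReal (K0 γ p) := by
    intro w c
    refine (one_layer_upper hA hγ hζ hp hp1 hL {z} B w c).trans (ENNReal.ofReal_le_ofReal ?_)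
    have hLT : Disjoint L (T \ L) := Finset.disjoint_sdiff
    have hLBT : Disjoint (L ∪ B) (T \ L) := Finset.disjoint_union_left.2 ⟨hLT, hB⟩
    have hγ1 : (0 : ℝ) ≤ 1 / γ := by positivity
    have b1 : hs (GT A γ w ζ (T \ L) c) {z} B ≤ (1 / γ) ^ 2 := by
      rw [hs_comm (fun x y => GT_symm hA (T \ L) c x y), _root_.one_div_pow]
      exact (hs_mono _ Finset.subset_union_right (Finset.Subset.refl _)).trans
        (hs_column_le hA hγ hζ w c hLBT (Finset.mem_union_left _ hz))
    have b2 : hs (GT A γ w ζ (T \ L) c) {z} L ≤ (1 / γ) ^ 2 := by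
      rw [hs_comm (fun x y => GT_symm hA (T \ L) c x y), _root_.one_div_pow]
      exact hs_column_le hA hγ hζ w c hLT hz
    have b3 : hs (GT A γ w ζ (T \ L) c) L B ≤ (1 / γ) ^ 2 := by
      rcases hcase with h | ⟨h, hy⟩
      · exact (hs_mono _ h (Finset.Subset.refl _)).trans b1
      · rw [_root_.one_div_pow]
        exact (hs_mono _ (Finset.Subset.refl _) h).trans (hs_column_le hA hγ hζ w c hLT hy)
    have hp2 : 0 ≤ p / 2 := by positivity
    have c1 := Real.rpow_le_rpow (hs_nonneg _ _ _) b1 hp2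
    have c2 := Real.rpow_le_rpow (hs_nonneg _ _ _) b2 hp2
    have c3 := Real.rpow_le_rpow (hs_nonneg _ _ _) b3 hp2
    rw [sq_rpow_half hγ1] at c1 c2 c3
    have hCK := CK_nonneg hp hp1
    have hg : 0 ≤ CK p * (2 * γ) ^ p := by positivity
    unfold K0
    refine add_le_add c1 ?_
    exact mul_le_mul (mul_le_mul_of_nonneg_left c2 hg) c3 (Real.rpow_nonneg (hs_nonneg _ _ _) _)
      (by positivity)
  calc _ ≤ ∫⁻ w : ι → ℝ, ∫⁻ c : ι → ℝ, ENNReal.ofReal (K0 γ p) ∂(mu ι)
        ∂(Measure.pi fun _ : ι => ρ) := lintegral_mono fun w => lintegral_mono fun c => hbd w c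
    _ = ENNReal.ofReal (K0 γ p) := by simp

/-- cut all bonds between `R` and its complement -/
noncomputable def cut (A : Matrix ι ι ℝ) (R : Finset ι) : Matrix ι ι ℝ :=
  fun x y => if (x ∈ R ↔ y ∈ R) then A x y else 0

theorem cut_symm (hA : A.IsSymm) (R : Finset ι) : (cut A R).IsSymm := by
  ext x y
  rw [Matrix.transpose_apply, cut, cut, hA.apply]
  by_cases h : x ∈ R ↔ y ∈ R
  · rw [if_pos h, if_pos h.symm]
  · rw [if_neg h, if_neg fun h' => h h'.symm]

theorem cut_dec (A : Matrix ι ι ℝ) (R : Finset ι) : Dec (cut A R) (fun x => x ∈ R) := by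
  intro x y h
  rw [cut, if_neg]
  tauto

theorem cut_local (hA : A.IsSymm) (R : Finset ι) {L : Finset ι} (hτ : 0 ≤ τ)
    (hL : ∀ x y, x ∈ R → y ∉ R → A x y ≠ 0 → x ∈ L ∧ y ∈ L)
    (hb : ∀ x, ∑ y, |A x y| ≤ τ) (W : ι → ℂ) : Local A (cut A R) W W L τ := by
  refine Local.of_bonds hA (cut_symm hA R) hτ ?_ ?_
  · intro x y h
    rw [cut]
    by_cases hxy : x ∈ R ↔ y ∈ R
    · rw [if_pos hxy]
    · rw [if_neg hxy]
      by_contra h0
      by_cases hx : x ∈ R
      · have := hL x y hx (by tauto) h0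
        tauto
      · have h0' : A y x ≠ 0 := by rwa [hA.apply]
        have := hL y x (by tauto) hx h0'
        tauto
  · intro x _
    refine le_trans ?_ (hb x)
    calc ∑ y ∈ L, |A x y - cut A R x y| ≤ ∑ y ∈ L, |A x y| := by
          refine Finset.sum_le_sum fun y _ => ?_
          rw [cut]
          split_ifs
          · simp
          · rw [sub_zero]
      _ ≤ ∑ y, |A x y| :=
          Finset.sum_le_sum_of_subset_of_nonneg (Finset.subset_univ _) fun _ _ _ => abs_nonneg _

end general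

/-! ### regions of the square lattice -/

/-- adjacency matrix of a finite region -/
noncomputable def AF (X : Finset Site) : Matrix X X ℝ := fun p q => adj p q

theorem adj_comm (p q : Site) : adj p q = adj q p := by
  unfold adj
  have h1 : (q.1 - p.1).natAbs = (p.1 - q.1).natAbs := by omega
  have h2 : (q.2 - p.2).natAbs = (p.2 - q.2).natAbs := by omega
  rw [h1, h2]

theorem AF_symm (X : Finset Site) : (AF X).IsSymm := by
  ext p q
  rw [Matrix.transpose_apply]
  exact adj_comm _ _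

theorem AF_row (X : Finset Site) (x : X) : ∑ y, |AF X x y| ≤ 4 := by
  have h1 : ∑ y, |AF X x y| ≤ ∑ y : X, if (y : Site) ∈ nbr x then (1 : ℝ) else 0 := by
    refine Finset.sum_le_sum fun y _ => ?_
    unfold AF
    rcases adj_eq_one_or (x : Site) y with h | h
    · rw [h, abs_zero]
      split_ifs <;> norm_num
    · rw [if_pos (mem_nbr_of_adj (by rw [h]; norm_num)), h, abs_one]
  refine h1.trans ?_
  rw [Finset.sum_boole]
  have h2 : (Finset.univ.filter fun y : X => (y : Site) ∈ nbr x).card ≤ (nbr x).card := by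
    refine Finset.card_le_card_of_injOn (fun y => (y : Site)) ?_ ?_
    · intro y hy
      have := (Finset.mem_filter.1 hy).2
      exact this
    · intro y _ z _ h
      exact Subtype.ext h
  exact_mod_cast h2.trans (card_nbr x)

/-- the part of `Y` in `X` as a set of indices -/
def sub (X Y : Finset Site) : Finset X := Finset.univ.filter fun x => (x : Site) ∈ Y

/-- the complement of `O` in `X` as a set of indices -/
def csub (X O : Finset Site) : Finset X := Finset.univ.filter fun x => (x : Site) ∉ O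

theorem mem_sub {X Y : Finset Site} {x : X} : x ∈ sub X Y ↔ (x : Site) ∈ Y := by
  simp [sub]

theorem mem_csub {X Y : Finset Site} {x : X} : x ∈ csub X Y ↔ (x : Site) ∉ Y := by
  simp [csub]

/-- `E ‖G^X_{SB}‖_HS^p` for the Dirichlet region `X` with absorbing set `O` -/
noncomputable def QR (γ : ℝ) (ζ : ℂ) (ρ : Measure ℝ) (p : ℝ) (X O S B : Finset Site) : ℝ≥0∞ :=
  QE (AF X) γ ζ ρ p (csub X O) (sub X S) (sub X B)

variable {γ p : ℝ} {ζ : ℂ} {ρ : Measure ℝ}

theorem QR_congr {X O O' S S' B B' : Finset Site} (hO : ∀ x ∈ X, x ∈ O ↔ x ∈ O')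
    (hS : ∀ x ∈ X, x ∈ S ↔ x ∈ S') (hB : ∀ x ∈ X, x ∈ B ↔ x ∈ B') :
    QR γ ζ ρ p X O S B = QR γ ζ ρ p X O' S' B' := by
  unfold QR
  have h1 : csub X O = csub X O' := by
    ext x
    rw [mem_csub, mem_csub, hO x x.2]
  have h2 : sub X S = sub X S' := by
    ext x
    rw [mem_sub, mem_sub, hS x x.2]
  have h3 : sub X B = sub X B' := by
    ext x
    rw [mem_sub, mem_sub, hB x x.2]
  rw [h1, h2, h3]

/-- inclusion of regions -/
def incl {R X : Finset Site} (h : R ⊆ X) : R ↪ X := ⟨fun x => ⟨x, h x.2⟩, fun x y hxy => by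
  have := congrArg (fun z : X => (z : Site)) hxy
  exact Subtype.ext this⟩

theorem QE_cut_eq [IsProbabilityMeasure ρ] (hγ : 0 < γ) (hζ : 0 < ζ.im) {R X : Finset Site}
    (hR : R ⊆ X) (O : Finset Site) {S B : Finset Site} (hS : ∀ x ∈ X, x ∈ S → x ∈ R) :
    QE (cut (AF X) (sub X R)) γ ζ ρ p (csub X O) (sub X S) (sub X B) = QR γ ζ ρ p R O S B := by
  have hsym := cut_symm (AF_symm X) (sub X R)
  have hD := cut_dec (AF X) (sub X R)
  rw [QE_restrict hsym hγ hζ ρ hD (csub X O) (fun a ha => mem_sub.2 (hS a a.2 (mem_sub.1 ha)))]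
  have e1 : sub X S = (sub R S).map (incl hR) := by
    ext x
    rw [mem_sub, Finset.mem_map]
    constructor
    · intro h
      exact ⟨⟨x, hS x x.2 h⟩, mem_sub.2 h, rfl⟩
    · rintro ⟨y, hy, rfl⟩
      exact (mem_sub.1 hy : (y : Site) ∈ S)
  have e2 : (sub X B).filter (fun x => x ∈ sub X R) = (sub R B).map (incl hR) := by
    ext x
    rw [Finset.mem_filter, mem_sub, mem_sub, Finset.mem_map]
    constructor
    · rintro ⟨h1, h2⟩
      exact ⟨⟨x, h2⟩, mem_sub.2 h1, rfl⟩
    · rintro ⟨y, hy, rfl⟩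
      exact ⟨(mem_sub.1 hy : (y : Site) ∈ B), y.2⟩
  have hrange : (fun x => x ∈ Set.range (incl hR)) = fun x : X => x ∈ sub X R := by
    funext x
    apply propext
    constructor
    · rintro ⟨y, rfl⟩
      exact mem_sub.2 y.2
    · intro h
      exact ⟨⟨x, mem_sub.1 h⟩, rfl⟩
  have hD' : Dec (cut (AF X) (sub X R)) (fun x => x ∈ Set.range (incl hR)) := by
    rw [hrange]
    exact hD
  rw [e1, e2, QE_block hsym hγ hζ ρ (incl hR) hD' (T' := csub R O) (by
    intro k
    rw [mem_csub, mem_csub]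
    rfl)]
  have h3 : (cut (AF X) (sub X R)).submatrix (incl hR) (incl hR) = AF R := by
    ext x y
    rw [Matrix.submatrix_apply, cut, if_pos]
    · rfl
    · exact iff_of_true (mem_sub.2 x.2) (mem_sub.2 y.2)
  rw [h3]
  rfl

end P365L.Comp
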