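import Vale.Agent.P365.Comp.Tor
import Vale.Agent.P365.Open.Defs

set_option linter.all false

/-!
# P365 / Comp / Ann: the annulus moment `GA` is small if the torus conductance is small.
-/

namespace P365L.Comp

open MeasureTheory ProbabilityTheory Complex P365S6
open P365L
open scoped ENNReal

section embed

variable {N : ℕ} [NeZero N] {l : ℕ}

theorem ds_zero (p : Site) : ds p 0 = max p.1.natAbs p.2.natAbs := by
  unfold ds
  simp

theorem nrm_tor {p : Site} {r : ℕ} (hp : ds p 0 ≤ r) (h : 2 * r + 1 ≤ N) :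
    nrm (tor N p) = ds p 0 := by
  rw [ds_zero] at hp ⊢
  unfold nrm tor
  rw [valMinAbs_intCast (by omega), valMinAbs_intCast (by omega)]

theorem cast_eq_iff {a b : ℤ} {M : ℕ} (h : (b - a).natAbs < M) :
    ((a : ℤ) : ZMod M) = ((b : ℤ) : ZMod M) ↔ a = b := by
  constructor
  · intro hab
    rw [ZMod.intCast_eq_intCast_iff_dvd_sub] at hab
    have h1 : b - a = 0 := by
      refine Int.eq_zero_of_abs_lt_dvd hab ?_
      rw [Int.abs_eq_natAbs]
      exact_mod_cast h
    omega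
  · intro hab
    rw [hab]

theorem AT_tor {x y : Site} (hx : ds x 0 ≤ 2 * l) (hy : ds y 0 ≤ 2 * l) (h : 4 * l + 2 ≤ N) :
    AT N (tor N x) (tor N y) = adj x y := by
  rw [ds_zero] at hx hy
  obtain ⟨x1, x2⟩ := x
  obtain ⟨y1, y2⟩ := y
  simp only at hx hy
  have key : ∀ a b k : ℤ, a.natAbs ≤ 2 * l → b.natAbs ≤ 2 * l → k.natAbs ≤ 1 →
      (((b : ℤ) : ZMod N) - ((a : ℤ) : ZMod N) = ((k : ℤ) : ZMod N) ↔ b - a = k) := by
    intro a b k ha hb hk
    rw [← Int.cast_sub]
    exact cast_eq_iff (by omega)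
  have ha1 : x1.natAbs ≤ 2 * l := by omega
  have ha2 : x2.natAbs ≤ 2 * l := by omega
  have hb1 : y1.natAbs ≤ 2 * l := by omega
  have hb2 : y2.natAbs ≤ 2 * l := by omega
  have k1 := key x1 y1 1 ha1 hb1 (by norm_num)
  have k2 := key x1 y1 (-1) ha1 hb1 (by norm_num)
  have k3 := key x1 y1 0 ha1 hb1 (by norm_num)
  have k4 := key x2 y2 1 ha2 hb2 (by norm_num)
  have k5 := key x2 y2 (-1) ha2 hb2 (by norm_num)
  have k6 := key x2 y2 0 ha2 hb2 (by norm_num)
  push_cast at k1 k2 k3 k4 k5 k6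
  unfold AT adj tor
  simp only [nbs, Finset.mem_insert, Finset.mem_singleton, Prod.mk_sub_mk, Prod.mk.injEq, k1, k2,
    k3, k4, k5, k6]
  have h2 : (y1 - x1 = 1 ∧ y2 - x2 = 0 ∨ y1 - x1 = -1 ∧ y2 - x2 = 0 ∨
      y1 - x1 = 0 ∧ y2 - x2 = 1 ∨ y1 - x1 = 0 ∧ y2 - x2 = -1) ↔
      ((x1 - y1).natAbs + (x2 - y2).natAbs = 1) := by omega
  simp only [h2]

/-- the annulus in the torus -/
noncomputable def emb (h : 4 * l + 2 ≤ N) : An l ↪ Tor N :=
  ⟨fun x => tor N (x : Site), fun x y hxy => by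
    have hx := (mem_An.1 x.2).2
    have hy := (mem_An.1 y.2).2
    rw [ds_zero] at hx hy
    have hxy' : tor N (x : Site) = tor N (y : Site) := hxy
    unfold tor at hxy'
    rw [Prod.mk.injEq] at hxy'
    apply Subtype.ext
    apply Prod.ext
    · exact (cast_eq_iff (M := N) (by omega)).1 hxy'.1
    · exact (cast_eq_iff (M := N) (by omega)).1 hxy'.2⟩

theorem nrm_emb (h : 4 * l + 2 ≤ N) (x : An l) : nrm (emb h x) = ds (x : Site) 0 :=
  nrm_tor (mem_An.1 x.2).2 (by omega)

theorem emb_surj (h : 4 * l + 2 ≤ N) {t : Tor N} (h1 : l ≤ nrm t) (h2 : nrm t ≤ 2 * l) :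
    ∃ x : An l, emb h x = t := by
  have h3 : ds ((t.1.valMinAbs, t.2.valMinAbs) : Site) 0 = nrm t := by
    rw [ds_zero]
    rfl
  refine ⟨⟨(t.1.valMinAbs, t.2.valMinAbs), ?_⟩, ?_⟩
  · rw [mem_An, h3]
    exact ⟨h1, h2⟩
  · show tor N (t.1.valMinAbs, t.2.valMinAbs) = t
    unfold tor
    simp

theorem A2_dec (h : 4 * l + 2 ≤ N) : Dec (A2 N l) (fun x => x ∈ Set.range (emb (N := N) h)) := by
  have key : ∀ x y : Tor N, x ∈ Set.range (emb (N := N) h) → y ∉ Set.range (emb (N := N) h) →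
      A2 N l x y = 0 := by
    rintro x y ⟨u, rfl⟩ hy
    have hu := mem_An.1 u.2
    have hnu := nrm_emb h u
    rw [A2_apply]
    by_cases h1 : l ≤ nrm y
    · have h2 : ¬ nrm y ≤ 2 * l := fun h2 => hy (emb_surj h h1 h2)
      rw [if_neg]
      rw [hnu]
      tauto
    · have h3 : ¬ (nrm (emb h u) < l ↔ nrm y < l) := by
        rw [hnu]
        omega
      rw [if_neg h3]
      simp
  intro x y hxy
  rcases hxy with ⟨hx, hy⟩ | ⟨hx, hy⟩
  · exact key x y hx hy
  · have h1 : A2 N l x y = A2 N l y x := (A2_symm (N := N) (l := l)).apply y x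
    rw [h1]
    exact key y x hy hx

theorem A2_sub (h : 4 * l + 2 ≤ N) : (A2 N l).submatrix (emb (N := N) h) (emb (N := N) h) = AF (An l) := by
  ext x y
  have hx := mem_An.1 x.2
  have hy := mem_An.1 y.2
  rw [Matrix.submatrix_apply, A2_apply, nrm_emb, nrm_emb, if_pos (by omega), if_pos (by omega)]
  exact AT_tor hx.2 hy.2 h

/-- the annulus moment as a moment on the torus -/
theorem GA_eq {γ p : ℝ} {ζ : ℂ} {ρ : Measure ℝ} [IsProbabilityMeasure ρ] (hγ : 0 < γ)
    (hζ : 0 < ζ.im) (h : 4 * l + 2 ≤ N) :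
    GA γ ζ ρ p l = QE (A2 N l) γ ζ ρ p (mid N l) (layer N l) (layer N (2 * l)) := by
  have e1 : ∀ r, l ≤ r → r ≤ 2 * l → (sub (An l) (Sh 0 r)).map (emb (N := N) h) = layer N r := by
    intro r hr1 hr2
    ext t
    rw [Finset.mem_map, mem_layer]
    constructor
    · rintro ⟨x, hx, rfl⟩
      rw [nrm_emb]
      exact mem_Sh.1 (mem_sub.1 hx)
    · intro ht
      obtain ⟨x, rfl⟩ := emb_surj h (t := t) (by omega) (by omega)
      rw [nrm_emb] at ht
      exact ⟨x, mem_sub.2 (mem_Sh.2 ht), rfl⟩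
  have hT : ∀ k : An l, emb (N := N) h k ∈ mid N l ↔ k ∈ csub (An l) (Sh 0 l ∪ Sh 0 (2 * l)) := by
    intro k
    have hk := mem_An.1 k.2
    rw [mem_mid, nrm_emb, mem_csub, Finset.mem_union, mem_Sh, mem_Sh]
    omega
  have h1 := QE_block (A := A2 N l) A2_symm hγ hζ ρ (emb (N := N) h) (A2_dec h) hT (p := p)
    (sub (An l) (Sh 0 l)) (sub (An l) (Sh 0 (2 * l)))
  rw [e1 l le_rfl (by omega), e1 (2 * l) (by omega) le_rfl, A2_sub h] at h1
  rw [h1]
  rfl

end embed

/-! ### expectations -/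

section expect

variable {N : ℕ} [NeZero N] {l : ℕ} {γ η p : ℝ} {ρ : Measure ℝ}

/-- the absorption profile: `γ` on `nrm ≤ l` and on `nrm ≥ 2l`, `e0` in between -/
noncomputable def prof (N : ℕ) [NeZero N] (l : ℕ) (γ e0 : ℝ) (x : Tor N) : ℝ :=
  if nrm x ≤ l ∨ 2 * l ≤ nrm x then γ else e0

theorem Wn_eq_Wp (E : ℝ) (w c : Tor N → ℝ) :
    Wn N l γ E η w (fun x => (if x ∈ mid N l then γ - η else γ) * c x) =
      Wp γ (prof N l γ η) (fun x => w x - E) c := by
  funext x
  unfold Wn Wp Poi.Wc prof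
  by_cases hx : x ∈ mid N l
  · have h1 : ¬ (nrm x ≤ l ∨ 2 * l ≤ nrm x) := by
      rw [mem_mid] at hx
      omega
    simp only [if_pos hx, if_neg h1]
    push_cast
    ring
  · have h1 : nrm x ≤ l ∨ 2 * l ≤ nrm x := by
      rw [mem_mid] at hx
      omega
    simp only [if_neg hx, if_pos h1]
    push_cast
    ring

theorem measurable_Wn (E : ℝ) (x : Tor N) :
    Measurable fun q : (Tor N → ℝ) × (Tor N → ℝ) => Wn N l γ E η q.1 q.2 x := by
  unfold Wn
  have h1 : Measurable fun q : (Tor N → ℝ) × (Tor N → ℝ) => ((q.1 x - E : ℝ) : ℂ) :=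
    Complex.measurable_ofReal.comp (((measurable_pi_apply x).comp measurable_fst).sub_const _)
  have h2 : Measurable fun q : (Tor N → ℝ) × (Tor N → ℝ) => ((q.2 x : ℝ) : ℂ) :=
    Complex.measurable_ofReal.comp ((measurable_pi_apply x).comp measurable_snd)
  by_cases hx : x ∈ mid N l
  · simp only [if_pos hx]
    exact h1.add (h2.sub_const _)
  · simp only [if_neg hx]
    exact h1.add_const _

/-- the conductance of the torus annulus as a function of the noise -/
noncomputable def HN (N : ℕ) [NeZero N] (l : ℕ) (γ E η : ℝ) (w c' : Tor N → ℝ) : ℝ :=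
  hs (Gr (AT N) (Wn N l γ E η w c')) (P365L.ball N l) (outr N l)

theorem measurable_HN (E : ℝ) :
    Measurable fun q : (Tor N → ℝ) × (Tor N → ℝ) => HN N l γ E η q.1 q.2 := by
  unfold HN hs
  refine Finset.measurable_sum _ fun a _ => Finset.measurable_sum _ fun b _ => ?_
  exact ((measurable_Gr (fun q : (Tor N → ℝ) × (Tor N → ℝ) => Wn N l γ E η q.1 q.2)
    (fun z => measurable_Wn E z) a b).norm).pow_const 2

theorem measurable_HN1 (E : ℝ) (w : Tor N → ℝ) :
    Measurable fun c : Tor N → ℝ => ENNReal.ofReal (HN N l γ E η w c) := by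
  refine Measurable.ennreal_ofReal ?_
  unfold HN hs
  refine Finset.measurable_sum _ fun a _ => Finset.measurable_sum _ fun b _ => ?_
  refine ((measurable_Gr (fun c : Tor N → ℝ => Wn N l γ E η w c) (fun x => ?_) a b).norm).pow_const 2
  unfold Wn
  by_cases hx : x ∈ mid N l
  · simp only [if_pos hx]
    exact ((Complex.measurable_ofReal.comp (measurable_pi_apply x)).sub_const _).const_add _
  · simp only [if_neg hx]
    exact measurable_const

theorem measurable_HNs (E : ℝ) :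
    Measurable fun q : (Tor N → ℝ) × (Tor N → ℝ) =>
      ENNReal.ofReal (HN N l γ E η q.1 fun x => γ * q.2 x) := by
  refine Measurable.ennreal_ofReal ?_
  unfold HN hs
  refine Finset.measurable_sum _ fun a _ => Finset.measurable_sum _ fun b _ => ?_
  refine ((measurable_Gr (fun q : (Tor N → ℝ) × (Tor N → ℝ) => Wn N l γ E η q.1
    (fun x => γ * q.2 x)) (fun x => ?_) a b).norm).pow_const 2
  unfold Wn
  have h1 : Measurable fun q : (Tor N → ℝ) × (Tor N → ℝ) => ((q.1 x - E : ℝ) : ℂ) :=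
    Complex.measurable_ofReal.comp (((measurable_pi_apply x).comp measurable_fst).sub_const _)
  have h2 : Measurable fun q : (Tor N → ℝ) × (Tor N → ℝ) => ((γ * q.2 x : ℝ) : ℂ) :=
    Complex.measurable_ofReal.comp (((measurable_pi_apply x).comp measurable_snd).const_mul _)
  by_cases hx : x ∈ mid N l
  · simp only [if_pos hx]
    exact h1.add (h2.sub_const _)
  · simp only [if_neg hx]
    exact h1.add_const _

theorem measurable_HNs1 (E : ℝ) (w : Tor N → ℝ) :
    Measurable fun c : Tor N → ℝ => ENNReal.ofReal (HN N l γ E η w fun x => γ * c x) := by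
  refine Measurable.ennreal_ofReal ?_
  unfold HN hs
  refine Finset.measurable_sum _ fun a _ => Finset.measurable_sum _ fun b _ => ?_
  refine ((measurable_Gr (fun c : Tor N → ℝ => Wn N l γ E η w (fun x => γ * c x))
    (fun x => ?_) a b).norm).pow_const 2
  unfold Wn
  by_cases hx : x ∈ mid N l
  · simp only [if_pos hx]
    exact ((Complex.measurable_ofReal.comp ((measurable_pi_apply x).const_mul _)).sub_const
      _).const_add _
  · simp only [if_neg hx]
    exact measurable_const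

theorem HN_nonneg (E : ℝ) (w c' : Tor N → ℝ) : 0 ≤ HN N l γ E η w c' := hs_nonneg _ _ _

/-- number of closed sites bounds the price of the change of noise scale -/
theorem scale_factor (hγ : 0 < γ) (n : ℕ) (hη : 0 < η) (hn : 2 * n * η ≤ γ) (hηγ : η < γ) :
    (γ / (γ - η)) ^ n ≤ 2 := by
  have h1 : (1 / 2 : ℝ) ≤ (1 - η / γ) ^ n := by
    have h2 := one_add_mul_le_pow (a := -(η / γ)) (by
      have : η / γ ≤ 1 := (div_le_one hγ).2 hηγ.le
      linarith) n
    have h3 : (n : ℝ) * (η / γ) ≤ 1 / 2 := by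
      rw [← mul_div_assoc, div_le_iff₀ hγ]
      linarith
    rw [← sub_eq_add_neg] at h2
    linarith
  have h4 : 0 < 1 - η / γ := by
    have : η / γ < 1 := (div_lt_one hγ).2 hηγ
    linarith
  have h5 : γ / (γ - η) = (1 - η / γ)⁻¹ := by
    have : γ - η ≠ 0 := by linarith
    field_simp
  rw [h5, inv_pow]
  rw [inv_le_comm₀ (by positivity) (by norm_num)]
  linarith

/-- comparison of expectations -/
theorem GA_le [IsProbabilityMeasure ρ] (hl : 1 ≤ l) (h : 4 * l + 2 ≤ N) (hγ : 0 < γ) (hp : 0 < p)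
    (hp1 : p < 1) (hη : 0 < η) (hηγ : η < γ) (hn : 2 * (mid N l).card * η ≤ γ) (E : ℝ) {δ : ℝ}
    (hδ : 0 < δ) :
    GA γ (E + η * I) ρ p l ≤ ENNReal.ofReal (δ ^ (p / 2)) +
      ENNReal.ofReal (δ ^ (p / 2 - 1) * (32 * (1 + 4 / γ) ^ 4)) *
        ∫⁻ w, ∫⁻ c, ENNReal.ofReal (hs (Gr (AT N) (Wp γ (prof N l γ η) (fun x => w x - E) c))
          (P365L.ball N l) (outr N l)) ∂(mu (Tor N)) ∂(Measure.pi fun _ : Tor N => ρ) := by
  have hζ : (0 : ℝ) < ((E : ℂ) + η * I).im := by simpa using hη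
  rw [GA_eq hγ hζ h]
  unfold QE
  have h4 : (0 : ℝ) ≤ 16 * (1 + 4 / γ) ^ 4 := by positivity
  have hδp : 0 < δ ^ (p / 2 - 1) := Real.rpow_pos_of_pos hδ _
  -- pointwise
  have hpt : ∀ w c : Tor N → ℝ,
      ENNReal.ofReal ((hs (GT (A2 N l) γ w (E + η * I) (mid N l) c) (layer N l)
        (layer N (2 * l))) ^ (p / 2)) ≤ ENNReal.ofReal (δ ^ (p / 2)) +
        ENNReal.ofReal (δ ^ (p / 2 - 1) * (16 * (1 + 4 / γ) ^ 4)) *
          ENNReal.ofReal (HN N l γ E η w fun x => γ * c x) := by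
    intro w c
    rw [← ENNReal.ofReal_mul (by positivity), ← ENNReal.ofReal_add (by positivity)
      (mul_nonneg (by positivity) (HN_nonneg _ _ _))]
    refine ENNReal.ofReal_le_ofReal ?_
    refine (rpow_le_lin (hs_nonneg _ _ _) hδ (q := p / 2) (by positivity) (by linarith)).trans ?_
    have h5 := hs_pointwise (N := N) (l := l) hl hγ hη hηγ.le E w c
    have h6 := mul_le_mul_of_nonneg_left h5 hδp.le
    unfold HN
    rw [mul_assoc]
    linarith
  have hm1 : ∀ w : Tor N → ℝ, Measurable fun c : Tor N → ℝ =>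
      ENNReal.ofReal (HN N l γ E η w c) := measurable_HN1 E
  have hm2 : Measurable fun q : (Tor N → ℝ) × (Tor N → ℝ) =>
      ENNReal.ofReal (HN N l γ E η q.1 fun x => γ * q.2 x) := measurable_HNs E
  have hm3 : ∀ w : Tor N → ℝ, Measurable fun c : Tor N → ℝ =>
      ENNReal.ofReal (HN N l γ E η w fun x => γ * c x) := measurable_HNs1 E
  -- inner integral
  have hin : ∀ w : Tor N → ℝ, ∫⁻ c, ENNReal.ofReal (HN N l γ E η w fun x => γ * c x)
        ∂(mu (Tor N)) ≤ 2 * ∫⁻ c, ENNReal.ofReal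
          (hs (Gr (AT N) (Wp γ (prof N l γ η) (fun x => w x - E) c)) (P365L.ball N l)
            (outr N l)) ∂(mu (Tor N)) := by
    intro w
    have h8 := lintegral_scales_le (ι := Tor N) (a := γ) (b := γ - η) (by linarith) (by linarith)
      (hm1 w) (mid N l)
    refine h8.trans ?_
    have h9 : ENNReal.ofReal (γ / (γ - η)) ^ (mid N l).card ≤ 2 := by
      rw [← ENNReal.ofReal_pow (div_nonneg hγ.le (by linarith))]
      calc ENNReal.ofReal ((γ / (γ - η)) ^ (mid N l).card) ≤ ENNReal.ofReal 2 :=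
            ENNReal.ofReal_le_ofReal (scale_factor hγ _ hη hn hηγ)
        _ = 2 := by simp
    have h10 : ∀ c : Tor N → ℝ, HN N l γ E η w
        (fun x => (if x ∈ mid N l then γ - η else γ) * c x) =
        hs (Gr (AT N) (Wp γ (prof N l γ η) (fun x => w x - E) c)) (P365L.ball N l)
            (outr N l) := by
      intro c
      unfold HN
      rw [Wn_eq_Wp]
    simp only [h10]
    exact mul_le_mul_of_nonneg_right h9 zero_le
  calc ∫⁻ w, ∫⁻ c, ENNReal.ofReal ((hs (GT (A2 N l) γ w (E + η * I) (mid N l) c) (layer N l)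
        (layer N (2 * l))) ^ (p / 2)) ∂(mu (Tor N)) ∂(Measure.pi fun _ : Tor N => ρ)
      ≤ ∫⁻ w, ∫⁻ c, (ENNReal.ofReal (δ ^ (p / 2)) +
        ENNReal.ofReal (δ ^ (p / 2 - 1) * (16 * (1 + 4 / γ) ^ 4)) *
          ENNReal.ofReal (HN N l γ E η w fun x => γ * c x)) ∂(mu (Tor N))
          ∂(Measure.pi fun _ : Tor N => ρ) :=
        lintegral_mono fun w => lintegral_mono fun c => hpt w c
    _ = ENNReal.ofReal (δ ^ (p / 2)) +
        ENNReal.ofReal (δ ^ (p / 2 - 1) * (16 * (1 + 4 / γ) ^ 4)) *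
          ∫⁻ w, ∫⁻ c, ENNReal.ofReal (HN N l γ E η w fun x => γ * c x) ∂(mu (Tor N))
          ∂(Measure.pi fun _ : Tor N => ρ) := by
        have h11 : ∀ w : Tor N → ℝ, ∫⁻ c, (ENNReal.ofReal (δ ^ (p / 2)) +
            ENNReal.ofReal (δ ^ (p / 2 - 1) * (16 * (1 + 4 / γ) ^ 4)) *
              ENNReal.ofReal (HN N l γ E η w fun x => γ * c x)) ∂(mu (Tor N)) =
            ENNReal.ofReal (δ ^ (p / 2)) +
            ENNReal.ofReal (δ ^ (p / 2 - 1) * (16 * (1 + 4 / γ) ^ 4)) *
              ∫⁻ c, ENNReal.ofReal (HN N l γ E η w fun x => γ * c x) ∂(mu (Tor N)) := by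
          intro w
          rw [lintegral_add_left measurable_const, lintegral_const_mul _ (hm3 w)]
          simp
        simp only [h11]
        rw [lintegral_add_left measurable_const, lintegral_const_mul _ hm2.lintegral_prod_right']
        simp
    _ ≤ ENNReal.ofReal (δ ^ (p / 2)) +
        ENNReal.ofReal (δ ^ (p / 2 - 1) * (16 * (1 + 4 / γ) ^ 4)) *
          ∫⁻ w, 2 * ∫⁻ c, ENNReal.ofReal
          (hs (Gr (AT N) (Wp γ (prof N l γ η) (fun x => w x - E) c)) (P365L.ball N l)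
            (outr N l)) ∂(mu (Tor N)) ∂(Measure.pi fun _ : Tor N => ρ) := by
        gcongr with w
        exact hin w
    _ = _ := by
        rw [lintegral_const_mul' _ _ (by simp), ← mul_assoc]
        congr 2
        have : (2 : ℝ≥0∞) = ENNReal.ofReal 2 := by simp
        rw [this, ← ENNReal.ofReal_mul (by positivity)]
        congr 1
        ring

end expect

end P365L.Comp
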