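import Vale.Agent.P365.Comp.Geo

set_option linter.all false

/-!
# P365 / Comp / Chain: the concentric chain and the decay recursion.
-/

namespace P365L.Comp

open MeasureTheory ProbabilityTheory Complex Matrix P365S6
open P365L
open scoped ENNReal

variable {γ p : ℝ} {ζ : ℂ} {ρ : Measure ℝ}

/-- radii of the concentric chain -/
def rk (r0 : ℕ) : ℕ → ℕ
  | 0 => r0
  | k + 1 => 2 * (rk r0 k + 1)

theorem rk_eq (r0 k : ℕ) : rk r0 k + 2 = 2 ^ k * (r0 + 2) := by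
  induction k with
  | zero => simp [rk]
  | succ k ih =>
    rw [rk, pow_succ]
    calc 2 * (rk r0 k + 1) + 2 = 2 * (rk r0 k + 2) := by ring
      _ = 2 ^ k * 2 * (r0 + 2) := by rw [ih]; ring

theorem le_rk (r0 k : ℕ) : r0 ≤ rk r0 k := by
  induction k with
  | zero => exact le_rfl
  | succ k ih => rw [rk]; omega

theorem FR_chain [IsProbabilityMeasure ρ] (hγ : 0 < γ) (hζ : 0 < ζ.im) (hp : 0 < p) (hp1 : p < 1)
    {r0 : ℕ} (hr0 : 1 ≤ r0) {g : ℝ} (hg : 0 ≤ g) (k : ℕ)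
    (hGA : ∀ j < k, GA γ ζ ρ p (rk r0 j + 1) ≤ ENNReal.ofReal g) :
    FR γ ζ ρ p (rk r0 k) ≤ ENNReal.ofReal ((CS γ 4 p * g) ^ k * K0 γ p) := by
  have hCS := CS_nonneg hγ (show (0 : ℝ) ≤ 4 by norm_num) hp hp1
  have hK0 := K0_nonneg hγ hp hp1
  induction k with
  | zero =>
    rw [pow_zero, one_mul]
    exact FR_base hγ hζ hp hp1 hr0
  | succ k ih =>
    have h1 := ih fun j hj => hGA j (by omega)
    have h2 := hGA k (Nat.lt_succ_self k)
    rw [rk]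
    refine (FR_step hγ hζ hp hp1 (rk r0 k)).trans ?_
    calc ENNReal.ofReal (CS γ 4 p) * (FR γ ζ ρ p (rk r0 k) * GA γ ζ ρ p (rk r0 k + 1))
        ≤ ENNReal.ofReal (CS γ 4 p) * (ENNReal.ofReal ((CS γ 4 p * g) ^ k * K0 γ p) *
            ENNReal.ofReal g) := by gcongr
      _ = ENNReal.ofReal ((CS γ 4 p * g) ^ (k + 1) * K0 γ p) := by
          rw [← ENNReal.ofReal_mul (by positivity), ← ENNReal.ofReal_mul hCS]
          congr 1
          ring

/-- the decay recursion with single-site roots -/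
theorem site_decay [IsProbabilityMeasure ρ] (hγ : 0 < γ) (hζ : 0 < ζ.im) (hp : 0 < p)
    (hp1 : p < 1) {X : Finset Site} {y : Site} (hyX : y ∈ X) {r : ℕ}
    (hF : ENNReal.ofReal (CS γ 4 p) * ENNReal.ofReal ((1 + 4 / γ) ^ p) * FR γ ζ ρ p r *
        ((16 * r + 16 : ℕ) : ℝ≥0∞) ≤ 1 / 2) (n : ℕ) :
    ∀ x, x ∈ X → Bl x (n * (r + 1)) ⊆ X → n * (r + 1) ≤ ds x y →
      QR γ ζ ρ p X ∅ {x} {y} ≤ (1 / 2) ^ n * ENNReal.ofReal (K0 γ p) := by
  induction n with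
  | zero =>
    intro x hxX _ _
    rw [pow_zero, one_mul]
    unfold QR
    have hs : ∀ z : X, sub X {(z : Site)} = {z} := by
      intro z
      ext v
      rw [mem_sub, Finset.mem_singleton, Finset.mem_singleton, Subtype.ext_iff]
    obtain ⟨u, hu⟩ : ∃ u : X, (u : Site) = x := ⟨⟨x, hxX⟩, rfl⟩
    obtain ⟨v, hv⟩ : ∃ v : X, (v : Site) = y := ⟨⟨y, hyX⟩, rfl⟩
    rw [← hu, ← hv, hs, hs]
    obtain ⟨L, hL⟩ : ∃ L : Finset X, L = {u, v} := ⟨_, rfl⟩
    have h3 : L ⊆ csub X ∅ := fun z _ => mem_csub.2 (Finset.notMem_empty _)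
    have hu1 : u ∈ L := by
      rw [hL]
      exact Finset.mem_insert_self _ _
    have hv1 : v ∈ L := by
      rw [hL]
      exact Finset.mem_insert_of_mem (Finset.mem_singleton_self _)
    have h4 : Disjoint ({v} : Finset X) (csub X ∅ \ L) := by
      refine Finset.disjoint_left.2 fun z hz hz' => ?_
      rw [Finset.mem_singleton] at hz
      rw [hz] at hz'
      exact (Finset.mem_sdiff.1 hz').2 hv1
    exact QE_apriori (AF_symm _) hγ hζ hp hp1 ρ h3 hu1 h4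
      ⟨v, hL.le, Or.inr ⟨Finset.Subset.refl _, hv1⟩⟩
  | succ n ih =>
    intro x hxX hB hd
    have hr : (n + 1) * (r + 1) = n * (r + 1) + (r + 1) := by ring
    have h1 : Bl x r ⊆ X := fun z hz => hB (by
      rw [mem_Bl] at hz ⊢
      rw [hr]
      omega)
    have h2 : r < ds x y := by
      rw [hr] at hd
      have := Nat.zero_le (n * (r + 1))
      omega
    have h3 : ∀ z ∈ X, ds z x ≤ r + 1 →
        QR γ ζ ρ p X ∅ {z} {y} ≤ (1 / 2) ^ n * ENNReal.ofReal (K0 γ p) := by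
      intro z hz hzx
      refine ih z hz (fun v hv => hB ?_) ?_
      · rw [mem_Bl] at hv ⊢
        have := ds_triangle v z x
        rw [hr]
        omega
      · have := ds_triangle x z y
        rw [ds_comm x z] at this
        rw [hr] at hd
        omega
    refine (site_step hγ hζ hp hp1 h1 h2 h3).trans ?_
    calc ENNReal.ofReal (CS γ 4 p) * ENNReal.ofReal ((1 + 4 / γ) ^ p) * FR γ ζ ρ p r *
        ((16 * r + 16 : ℕ) * ((1 / 2) ^ n * ENNReal.ofReal (K0 γ p)))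
        = (ENNReal.ofReal (CS γ 4 p) * ENNReal.ofReal ((1 + 4 / γ) ^ p) * FR γ ζ ρ p r *
        ((16 * r + 16 : ℕ) : ℝ≥0∞)) * ((1 / 2) ^ n * ENNReal.ofReal (K0 γ p)) := by ring
      _ ≤ 1 / 2 * ((1 / 2) ^ n * ENNReal.ofReal (K0 γ p)) := by gcongr
      _ = (1 / 2) ^ (n + 1) * ENNReal.ofReal (K0 γ p) := by ring

/-- the smallness threshold for the annuli -/
noncomputable def g0 (γ p : ℝ) : ℝ := 1 / (8 * (CS γ 4 p + 1))

theorem g0_pos (hγ : 0 < γ) (hp : 0 < p) (hp1 : p < 1) : 0 < g0 γ p := by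
  have hCS := CS_nonneg hγ (show (0 : ℝ) ≤ 4 by norm_num) hp hp1
  unfold g0
  positivity

theorem CS_g0 (hγ : 0 < γ) (hp : 0 < p) (hp1 : p < 1) : CS γ 4 p * g0 γ p ≤ 1 / 8 := by
  have hCS := CS_nonneg hγ (show (0 : ℝ) ≤ 4 by norm_num) hp hp1
  unfold g0
  rw [mul_one_div, div_le_div_iff₀ (by positivity) (by norm_num)]
  nlinarith

/-- a good scale -/
theorem exists_scale (hγ : 0 < γ) (hp : 0 < p) (hp1 : p < 1) (r0 : ℕ) : ∃ k : ℕ,
    CS γ 4 p * (1 + 4 / γ) ^ p * ((CS γ 4 p * g0 γ p) ^ k * K0 γ p) *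
      (16 * (rk r0 k : ℝ) + 16) ≤ 1 / 2 := by
  have hCS := CS_nonneg hγ (show (0 : ℝ) ≤ 4 by norm_num) hp hp1
  have hK0 := K0_nonneg hγ hp hp1
  have hg0 := (g0_pos hγ hp hp1).le
  have hg := CS_g0 hγ hp hp1
  obtain ⟨D, hD0, hD⟩ : ∃ D : ℝ, 0 ≤ D ∧
      D = CS γ 4 p * (1 + 4 / γ) ^ p * K0 γ p * (16 * (r0 + 2)) := ⟨_, by positivity, rfl⟩
  obtain ⟨k, hk⟩ := exists_pow_lt_of_lt_one (show (0 : ℝ) < 1 / (2 * (D + 1)) by positivity)
    (show (1 / 4 : ℝ) < 1 by norm_num)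
  refine ⟨k, ?_⟩
  have h1 : (16 * (rk r0 k : ℝ) + 16) ≤ 16 * (2 ^ k * (r0 + 2)) := by
    have : ((rk r0 k + 2 : ℕ) : ℝ) = ((2 ^ k * (r0 + 2) : ℕ) : ℝ) := by rw [rk_eq]
    push_cast at this
    linarith
  have h2 : (CS γ 4 p * g0 γ p) ^ k ≤ (1 / 8) ^ k := pow_le_pow_left₀ (by positivity) hg k
  calc CS γ 4 p * (1 + 4 / γ) ^ p * ((CS γ 4 p * g0 γ p) ^ k * K0 γ p) *
      (16 * (rk r0 k : ℝ) + 16)
      ≤ CS γ 4 p * (1 + 4 / γ) ^ p * ((1 / 8) ^ k * K0 γ p) * (16 * (2 ^ k * (r0 + 2))) := by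
        gcongr
    _ = D * (1 / 4) ^ k := by
        rw [hD]
        have : ((1 : ℝ) / 4) ^ k = (1 / 8) ^ k * 2 ^ k := by
          rw [← mul_pow]
          norm_num
        rw [this]
        ring
    _ ≤ D * (1 / (2 * (D + 1))) := mul_le_mul_of_nonneg_left hk.le hD0
    _ ≤ 1 / 2 := by
        rw [mul_one_div, div_le_div_iff₀ (by positivity) (by norm_num)]
        nlinarith

/-- **decay at a fixed complex energy** from the smallness of finitely many annuli -/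
theorem decay_of_annuli [IsProbabilityMeasure ρ] (hγ : 0 < γ) (hp : 0 < p) (hp1 : p < 1)
    (r0 : ℕ) (hr0 : 1 ≤ r0) : ∃ K : ℕ, ∃ C c₀ : ℝ, 0 < c₀ ∧ ∀ ζ : ℂ, 0 < ζ.im →
      (∀ l, r0 < l → l ≤ K → GA γ ζ ρ p l ≤ ENNReal.ofReal (g0 γ p)) →
      ∀ y : Site, ∀ M : ℕ, 2 * ds 0 y ≤ M →
        QR γ ζ ρ p (Lam M) ∅ {0} {y} ≤
          ENNReal.ofReal (C * Real.exp (-c₀ * (y.1.natAbs + y.2.natAbs : ℕ))) := by
  obtain ⟨k, hk⟩ := exists_scale hγ hp hp1 r0
  have hCS := CS_nonneg hγ (show (0 : ℝ) ≤ 4 by norm_num) hp hp1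
  have hK0 := K0_nonneg hγ hp hp1
  have hg0 := (g0_pos hγ hp hp1).le
  obtain ⟨r, hr⟩ : ∃ r, r = rk r0 k := ⟨_, rfl⟩
  refine ⟨r, 2 * K0 γ p, Real.log 2 / (2 * (r + 1)), by positivity, ?_⟩
  intro ζ hζ hGA y M hM
  have hmono : ∀ j, j < k → rk r0 j + 1 ≤ rk r0 k := by
    intro j hj
    have h1 := rk_eq r0 j
    have h2 := rk_eq r0 k
    have h3 : 2 * 2 ^ j ≤ 2 ^ k := by
      rw [← pow_succ']
      exact Nat.pow_le_pow_right (by norm_num) hj
    have h4 : 1 ≤ 2 ^ j := Nat.one_le_two_pow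
    nlinarith
  have hFR := FR_chain (ρ := ρ) hγ hζ hp hp1 hr0 hg0 k (fun j hj => hGA _ (by
    have := le_rk r0 j
    omega) (by
    rw [hr]
    exact hmono j hj))
  rw [← hr] at hFR
  have hF : ENNReal.ofReal (CS γ 4 p) * ENNReal.ofReal ((1 + 4 / γ) ^ p) * FR γ ζ ρ p r *
        ((16 * r + 16 : ℕ) : ℝ≥0∞) ≤ 1 / 2 := by
    calc ENNReal.ofReal (CS γ 4 p) * ENNReal.ofReal ((1 + 4 / γ) ^ p) * FR γ ζ ρ p r *
        ((16 * r + 16 : ℕ) : ℝ≥0∞)
        ≤ ENNReal.ofReal (CS γ 4 p) * ENNReal.ofReal ((1 + 4 / γ) ^ p) *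
          ENNReal.ofReal ((CS γ 4 p * g0 γ p) ^ k * K0 γ p) * ((16 * r + 16 : ℕ) : ℝ≥0∞) := by
          gcongr
      _ = ENNReal.ofReal (CS γ 4 p * (1 + 4 / γ) ^ p * ((CS γ 4 p * g0 γ p) ^ k * K0 γ p) *
          (16 * (rk r0 k : ℝ) + 16)) := by
          rw [← ENNReal.ofReal_natCast, ← ENNReal.ofReal_mul hCS,
            ← ENNReal.ofReal_mul (by positivity), ← ENNReal.ofReal_mul (by positivity), hr]
          push_cast
          rfl
      _ ≤ ENNReal.ofReal (1 / 2) := ENNReal.ofReal_le_ofReal hk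
      _ = 1 / 2 := by
          rw [one_div, one_div, ENNReal.ofReal_inv_of_pos (by norm_num)]
          norm_num
  have hyX : y ∈ Lam M := by
    rw [mem_Lam]
    have h1 : ds 0 y = max y.1.natAbs y.2.natAbs := by
      unfold ds
      simp
    rw [h1] at hM
    omega
  have h0X : (0 : Site) ∈ Lam M := by
    rw [mem_Lam]
    simp
  obtain ⟨n, hn⟩ : ∃ n, n = ds 0 y / (r + 1) := ⟨_, rfl⟩
  have hn1 : n * (r + 1) ≤ ds 0 y := by
    rw [hn]
    exact Nat.div_mul_le_self _ _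
  have hn2 : ds 0 y < (n + 1) * (r + 1) := by
    rw [hn, add_mul, one_mul, mul_comm]
    have := Nat.lt_mul_div_succ (ds 0 y) (show 0 < r + 1 by omega)
    rw [mul_add, mul_one] at this
    exact this
  have hB : Bl 0 (n * (r + 1)) ⊆ Lam M := by
    intro z hz
    rw [mem_Bl] at hz
    have h1 : ds z 0 = max z.1.natAbs z.2.natAbs := by
      unfold ds
      simp
    rw [mem_Lam]
    rw [h1] at hz
    omega
  refine (site_decay hγ hζ hp hp1 hyX hF n 0 h0X hB hn1).trans ?_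
  have hhalf : ((1 : ℝ≥0∞) / 2) ^ n = ENNReal.ofReal ((1 / 2) ^ n) := by
    rw [ENNReal.ofReal_pow (by norm_num), one_div, one_div,
      ENNReal.ofReal_inv_of_pos (by norm_num)]
    norm_num
  rw [hhalf, ← ENNReal.ofReal_mul (by positivity)]
  refine ENNReal.ofReal_le_ofReal ?_
  have h5 : ((1 : ℝ) / 2) ^ n ≤
      2 * Real.exp (-(Real.log 2 / (2 * (r + 1))) * (y.1.natAbs + y.2.natAbs : ℕ)) := by
    have h6 : ((1 : ℝ) / 2) ^ n = Real.exp (-(n * Real.log 2)) := by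
      rw [Real.exp_neg, mul_comm, Real.exp_mul, Real.exp_log (by norm_num), Real.rpow_natCast,
        one_div, inv_pow]
    have h7 : (2 : ℝ) = Real.exp (Real.log 2) := (Real.exp_log (by norm_num)).symm
    rw [h6]
    nth_rewrite 2 [h7]
    rw [← Real.exp_add]
    refine Real.exp_le_exp.2 ?_
    have hlog : 0 < Real.log 2 := Real.log_pos (by norm_num)
    have h8 : ((y.1.natAbs + y.2.natAbs : ℕ) : ℝ) ≤ 2 * ((n + 1) * (r + 1)) := by
      have h9 : y.1.natAbs + y.2.natAbs ≤ 2 * ((n + 1) * (r + 1)) := by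
        have h10 : ds 0 y = max y.1.natAbs y.2.natAbs := by
          unfold ds
          simp
        rw [h10] at hn2
        omega
      exact_mod_cast h9
    have h11 : Real.log 2 / (2 * ((r : ℝ) + 1)) * ((y.1.natAbs + y.2.natAbs : ℕ) : ℝ) ≤
        Real.log 2 / (2 * ((r : ℝ) + 1)) * (2 * ((n + 1) * (r + 1))) :=
      mul_le_mul_of_nonneg_left h8 (by positivity)
    have h12 : Real.log 2 / (2 * ((r : ℝ) + 1)) * (2 * ((n + 1) * (r + 1))) =
        (n + 1) * Real.log 2 := by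
      field_simp
    rw [neg_mul]
    linarith
  calc (1 / 2) ^ n * K0 γ p ≤ (2 * Real.exp (-(Real.log 2 / (2 * (r + 1))) *
        (y.1.natAbs + y.2.natAbs : ℕ))) * K0 γ p := mul_le_mul_of_nonneg_right h5 hK0
    _ = _ := by ring

end P365L.Comp
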