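import Vale.Agent.P365.Comp.Tau
import Vale.Agent.P365.X3.Defs
import Mathlib.Analysis.Complex.ExponentialBounds

set_option linter.all false

/-!
# P365 / Comp / Cover: the finite-volume input on a compact energy interval, for all laws dominated
by `(1 + δ)` times the law `background + γ · Cauchy`.
-/

namespace P365L.Comp

open MeasureTheory ProbabilityTheory Complex P365S6
open P365L
open scoped ENNReal

variable {γ p : ℝ} {ρ : Measure ℝ}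

theorem tau_eq_tauL (m : Measure ℝ) (ζ : ℂ) (s : ℝ) (r : ℕ) :
    P365X.tau m ζ s r = tauL m ζ s r := rfl

/-- one energy window -/
theorem tauL_local [IsProbabilityMeasure ρ] (hγ : 0 < γ) (hp : 0 < p) (hp1 : p < 1) (E : ℝ)
    (h : OpenThm γ E ρ) (K : ℕ) {ε : ℝ} (hε : 0 < ε) :
    ∃ r : ℕ, 1 ≤ r ∧ ∃ η₀ : ℝ, 0 < η₀ ∧ ∃ e : ℝ, 0 < e ∧ ∀ E' : ℝ, |E' - E| ≤ e →
      ∀ η : ℝ, 0 < η → η ≤ η₀ →
      ENNReal.ofReal ((r : ℝ) ^ K) * tauL (qlaw γ ρ) (E' + η * I) p r ≤ ENNReal.ofReal ε := by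
  obtain ⟨r, _, h2, η₀, hη₀, H⟩ := tauL_small hγ hp hp1 E h K 0 (show 0 < ε / 3 by positivity)
  obtain ⟨n, hn⟩ : ∃ n : ℕ, n = (Bl 0 r).card := ⟨_, rfl⟩
  refine ⟨r, h2, η₀, hη₀, γ / (2 * (n + 1)), by positivity, fun E' hE' η hη hη1 => ?_⟩
  have h3 := tauL_window (ρ := ρ) hγ E E' η p r
  rw [← hn] at h3
  have h4 : ((1 + |E' - E| / γ) ^ 2) ^ n ≤ 3 := by
    rw [← pow_mul]
    have h5 : 1 + |E' - E| / γ ≤ Real.exp (1 / (2 * ((n : ℝ) + 1))) := by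
      have h6 : |E' - E| / γ ≤ 1 / (2 * ((n : ℝ) + 1)) := by
        rw [div_le_iff₀ hγ]
        calc |E' - E| ≤ γ / (2 * (n + 1)) := hE'
          _ = 1 / (2 * ((n : ℝ) + 1)) * γ := by ring
      have := Real.add_one_le_exp (1 / (2 * ((n : ℝ) + 1)))
      linarith
    calc (1 + |E' - E| / γ) ^ (2 * n) ≤ (Real.exp (1 / (2 * ((n : ℝ) + 1)))) ^ (2 * n) :=
          pow_le_pow_left₀ (by positivity) h5 _
      _ = Real.exp ((2 * n : ℕ) * (1 / (2 * ((n : ℝ) + 1)))) := by rw [← Real.exp_nat_mul]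
      _ ≤ Real.exp 1 := by
          refine Real.exp_le_exp.2 ?_
          rw [mul_one_div, div_le_one (by positivity)]
          push_cast
          linarith
      _ ≤ 3 := Real.exp_one_lt_three.le
  calc ENNReal.ofReal ((r : ℝ) ^ K) * tauL (qlaw γ ρ) (E' + η * I) p r
      ≤ ENNReal.ofReal ((r : ℝ) ^ K) * (ENNReal.ofReal ((1 + |E' - E| / γ) ^ 2) ^ n *
          tauL (qlaw γ ρ) (E + η * I) p r) := mul_le_mul_of_nonneg_left h3 zero_le
    _ = ENNReal.ofReal (((1 + |E' - E| / γ) ^ 2) ^ n) * (ENNReal.ofReal ((r : ℝ) ^ K) *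
          tauL (qlaw γ ρ) (E + η * I) p r) := by
        rw [ENNReal.ofReal_pow (by positivity : (0 : ℝ) ≤ (1 + |E' - E| / γ) ^ 2)]
        ring
    _ ≤ ENNReal.ofReal 3 * ENNReal.ofReal (ε / 3) := by
        refine mul_le_mul' (ENNReal.ofReal_le_ofReal h4) (H η hη hη1)
    _ = ENNReal.ofReal ε := by
        rw [← ENNReal.ofReal_mul (by norm_num)]
        congr 1
        ring

/-- **(X4)** the finite-volume input, uniformly on `|E| ≤ E₀`, for every law dominated by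
`(1 + δ₀)` times the law `background + γ · Cauchy` -/
theorem tau_cover [IsProbabilityMeasure ρ] (hγ : 0 < γ) (hp : 0 < p) (hp1 : p < 1) (E₀ : ℝ)
    (h : ∀ E : ℝ, |E| ≤ E₀ → OpenThm γ E ρ) (K : ℕ) {ε : ℝ} (hε : 0 < ε) :
    ∃ δ₀ : ℝ, 0 < δ₀ ∧ ∃ η₀ : ℝ, 0 < η₀ ∧ ∃ R : ℕ, ∀ (m : Measure ℝ), IsProbabilityMeasure m →
      m ≤ ENNReal.ofReal (1 + δ₀) • qlaw γ ρ →
      ∀ E : ℝ, |E| ≤ E₀ → ∃ r : ℕ, 1 ≤ r ∧ r ≤ R ∧ ∀ η : ℝ, 0 < η → η ≤ η₀ →
        ENNReal.ofReal ((r : ℝ) ^ K) * P365X.tau m (E + η * I) p r ≤ ENNReal.ofReal ε := by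
  have h1 : ∀ E : ℝ, |E| ≤ E₀ → ∃ r : ℕ, 1 ≤ r ∧ ∃ η₀ : ℝ, 0 < η₀ ∧ ∃ e : ℝ, 0 < e ∧
      ∀ E' : ℝ, |E' - E| ≤ e → ∀ η : ℝ, 0 < η → η ≤ η₀ →
      ENNReal.ofReal ((r : ℝ) ^ K) * tauL (qlaw γ ρ) (E' + η * I) p r ≤
        ENNReal.ofReal (ε / 2) := fun E hE =>
    tauL_local hγ hp hp1 E (h E hE) K (by positivity)
  choose! r hr η₁ hη₁ e he H using h1
  obtain ⟨t, ht⟩ := (isCompact_Icc (a := -E₀) (b := E₀)).elim_nhds_subcover'
    (fun E _ => Metric.closedBall E (e E)) fun E hE =>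
      Metric.closedBall_mem_nhds E (he E (abs_le.2 hE))
  obtain ⟨R, hR⟩ : ∃ R : ℕ, ∀ E ∈ t, r (E : ℝ) ≤ R :=
    ⟨t.sup fun E => r (E : ℝ), fun E hE =>
      Finset.le_sup (f := fun E : Set.Icc (-E₀) E₀ => r (E : ℝ)) hE⟩
  obtain ⟨η₀, hη₀, hη₀'⟩ : ∃ η₀ : ℝ, 0 < η₀ ∧ ∀ E ∈ t, η₀ ≤ η₁ (E : ℝ) := by
    have hne : (insert (1 : ℝ) (t.image fun E : Set.Icc (-E₀) E₀ => η₁ (E : ℝ))).Nonempty :=
      Finset.insert_nonempty _ _
    refine ⟨(insert (1 : ℝ) (t.image fun E : Set.Icc (-E₀) E₀ => η₁ (E : ℝ))).min' hne, ?_, ?_⟩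
    · rw [Finset.lt_min'_iff]
      intro x hx
      rw [Finset.mem_insert, Finset.mem_image] at hx
      rcases hx with rfl | ⟨E, _, rfl⟩
      · exact one_pos
      · exact hη₁ _ (abs_le.2 E.2)
    · intro E hE
      exact Finset.min'_le _ _ (Finset.mem_insert_of_mem (Finset.mem_image_of_mem _ hE))
  obtain ⟨n, hn⟩ : ∃ n : ℕ, ∀ k ≤ R, (Bl 0 k).card ≤ n := by
    refine ⟨(Bl 0 R).card, fun k hk => Finset.card_le_card fun x hx => ?_⟩
    rw [mem_Bl] at hx ⊢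
    omega
  have hlog : 0 < Real.log 2 := Real.log_pos (by norm_num)
  obtain ⟨δ₀, hδ₀, hδ₀'⟩ : ∃ δ₀ : ℝ, 0 < δ₀ ∧ (1 + δ₀) ^ n ≤ 2 := by
    refine ⟨Real.log 2 / (n + 1), by positivity, ?_⟩
    calc (1 + Real.log 2 / ((n : ℝ) + 1)) ^ n ≤ (Real.exp (Real.log 2 / ((n : ℝ) + 1))) ^ n := by
          refine pow_le_pow_left₀ (by positivity) ?_ _
          have := Real.add_one_le_exp (Real.log 2 / ((n : ℝ) + 1))
          linarith
      _ = Real.exp (n * (Real.log 2 / ((n : ℝ) + 1))) := by rw [← Real.exp_nat_mul]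
      _ ≤ Real.exp (Real.log 2) := by
          refine Real.exp_le_exp.2 ?_
          rw [← mul_div_assoc, div_le_iff₀ (by positivity)]
          nlinarith
      _ = 2 := Real.exp_log (by norm_num)
  refine ⟨δ₀, hδ₀, η₀, hη₀, R, fun m hm hdom E hE => ?_⟩
  have hE1 : E ∈ Set.Icc (-E₀) E₀ := abs_le.1 hE
  have h2 := ht hE1
  rw [Set.mem_iUnion₂] at h2
  obtain ⟨E₁, hE₁, hE₂⟩ := h2
  rw [Metric.mem_closedBall, Real.dist_eq] at hE₂
  have hE₁' : |(E₁ : ℝ)| ≤ E₀ := abs_le.2 E₁.2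
  refine ⟨r E₁, hr _ hE₁', hR _ hE₁, fun η hη hη1 => ?_⟩
  have h3 := H E₁ hE₁' E hE₂ η hη (hη1.trans (hη₀' _ hE₁))
  have h4 := tauL_dom hdom (E + η * I) p (r E₁)
  have h5 : ENNReal.ofReal (1 + δ₀) ^ (Bl 0 (r E₁)).card ≤ ENNReal.ofReal 2 := by
    rw [← ENNReal.ofReal_pow (by positivity)]
    refine ENNReal.ofReal_le_ofReal (le_trans ?_ hδ₀')
    exact pow_le_pow_right₀ (by linarith) (hn _ (hR _ hE₁))
  rw [tau_eq_tauL]
  calc ENNReal.ofReal ((r E₁ : ℝ) ^ K) * tauL m (E + η * I) p (r E₁)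
      ≤ ENNReal.ofReal ((r E₁ : ℝ) ^ K) * (ENNReal.ofReal 2 *
          tauL (qlaw γ ρ) (E + η * I) p (r E₁)) :=
        mul_le_mul_of_nonneg_left (h4.trans (mul_le_mul_of_nonneg_right h5 zero_le)) zero_le
    _ = ENNReal.ofReal 2 * (ENNReal.ofReal ((r E₁ : ℝ) ^ K) *
          tauL (qlaw γ ρ) (E + η * I) p (r E₁)) := by ring
    _ ≤ ENNReal.ofReal 2 * ENNReal.ofReal (ε / 2) := mul_le_mul_of_nonneg_left h3 zero_le
    _ = ENNReal.ofReal ε := by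
        rw [← ENNReal.ofReal_mul (by norm_num)]
        congr 1
        ring

/-- truncated laws are dominated by `(1 + δ)` times the original law for large truncation -/
theorem cond_Icc_le (m : Measure ℝ) [IsProbabilityMeasure m] {δ : ℝ} (hδ : 0 < δ) :
    ∃ X₀ : ℝ, 0 < X₀ ∧ ∀ X : ℝ, X₀ ≤ X → m (Set.Icc (-X) X) ≠ 0 ∧
      ProbabilityTheory.cond m (Set.Icc (-X) X) ≤ ENNReal.ofReal (1 + δ) • m := by
  have hlim : Filter.Tendsto (fun n : ℕ => m (Set.Icc (-(n : ℝ)) n)) Filter.atTop (nhds 1) := by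
    have h1 : Monotone fun n : ℕ => Set.Icc (-(n : ℝ)) n := by
      intro a b hab
      have : (a : ℝ) ≤ b := by exact_mod_cast hab
      exact Set.Icc_subset_Icc (by linarith) this
    have h2 := tendsto_measure_iUnion_atTop (μ := m) h1
    have h3 : (⋃ n : ℕ, Set.Icc (-(n : ℝ)) n) = Set.univ := by
      rw [Set.eq_univ_iff_forall]
      intro x
      obtain ⟨n, hn⟩ := exists_nat_ge |x|
      rw [Set.mem_iUnion]
      exact ⟨n, abs_le.1 hn⟩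
    rw [h3, measure_univ] at h2
    exact h2
  have h4 : ENNReal.ofReal (1 / (1 + δ)) < 1 := by
    rw [← ENNReal.ofReal_one]
    refine (ENNReal.ofReal_lt_ofReal_iff one_pos).2 ?_
    rw [div_lt_one (by positivity)]
    linarith
  obtain ⟨n, hn⟩ := (hlim.eventually (lt_mem_nhds h4)).exists
  refine ⟨n + 1, by positivity, fun X hX => ?_⟩
  have h5 : m (Set.Icc (-(n : ℝ)) n) ≤ m (Set.Icc (-X) X) :=
    measure_mono (Set.Icc_subset_Icc (by linarith) (by linarith))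
  have h6 : ENNReal.ofReal (1 / (1 + δ)) ≤ m (Set.Icc (-X) X) := hn.le.trans h5
  have h7 : (0 : ℝ≥0∞) < ENNReal.ofReal (1 / (1 + δ)) := ENNReal.ofReal_pos.2 (by positivity)
  refine ⟨(h7.trans_le h6).ne', (cond_le measurableSet_Icc).trans ?_⟩
  refine Measure.le_iff.2 fun s _ => ?_
  rw [Measure.smul_apply, Measure.smul_apply, smul_eq_mul, smul_eq_mul]
  refine mul_le_mul_of_nonneg_right ?_ zero_le
  rw [ENNReal.inv_le_iff_inv_le]
  refine le_trans (le_of_eq ?_) h6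
  rw [one_div, ENNReal.ofReal_inv_of_pos (by positivity)]

end P365L.Comp
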