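import Vale.Agent.P365.Bdl.B1

set_option linter.all false

/-!
# P365 / Comp / Det: deterministic part of the two-layer composition step.
-/

namespace P365L.Comp

open MeasureTheory ProbabilityTheory Complex Matrix
open P365L

variable {ι : Type*} [Fintype ι] [DecidableEq ι]
variable {A A' : Matrix ι ι ℝ} {W W' : ι → ℂ} {γ η τ : ℝ}

/-- squared Hilbert–Schmidt norm of the block `S × B` of a matrix -/
noncomputable def hs {ι : Type*} (M : Matrix ι ι ℂ) (S B : Finset ι) : ℝ :=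
  ∑ a ∈ S, ∑ b ∈ B, ‖M a b‖ ^ 2

omit [Fintype ι] [DecidableEq ι] in
theorem hs_nonneg (M : Matrix ι ι ℂ) (S B : Finset ι) : 0 ≤ hs M S B :=
  Finset.sum_nonneg fun _ _ => Finset.sum_nonneg fun _ _ => sq_nonneg _

omit [Fintype ι] [DecidableEq ι] in
theorem hs_mono (M : Matrix ι ι ℂ) {S S' B B' : Finset ι} (hS : S ⊆ S') (hB : B ⊆ B') :
    hs M S B ≤ hs M S' B' := by
  unfold hs
  calc ∑ a ∈ S, ∑ b ∈ B, ‖M a b‖ ^ 2 ≤ ∑ a ∈ S, ∑ b ∈ B', ‖M a b‖ ^ 2 :=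
        Finset.sum_le_sum fun a _ =>
          Finset.sum_le_sum_of_subset_of_nonneg hB fun _ _ _ => sq_nonneg _
    _ ≤ ∑ a ∈ S', ∑ b ∈ B', ‖M a b‖ ^ 2 :=
        Finset.sum_le_sum_of_subset_of_nonneg hS fun _ _ _ =>
          Finset.sum_nonneg fun _ _ => sq_nonneg _

omit [Fintype ι] [DecidableEq ι] in
theorem hs_comm {M : Matrix ι ι ℂ} (hM : ∀ x y, M x y = M y x) (S B : Finset ι) :
    hs M S B = hs M B S := by
  unfold hs
  rw [Finset.sum_comm]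
  exact Finset.sum_congr rfl fun a _ => Finset.sum_congr rfl fun b _ => by rw [hM]

theorem Kmat_mul_Gr (hA : A.IsSymm) (hW : ∀ x, (W x).im < 0) : Kmat A W * Gr A W = 1 :=
  Matrix.mul_nonsing_inv _ (isUnit_iff_ne_zero.2 (det_ne_zero hA hW))

theorem Gr_mul_Kmat (hA : A.IsSymm) (hW : ∀ x, (W x).im < 0) : Gr A W * Kmat A W = 1 :=
  Matrix.nonsing_inv_mul _ (isUnit_iff_ne_zero.2 (det_ne_zero hA hW))

/-- a solution of `K u = f` is `G f` -/
theorem eq_Gr_mulVec (hA : A.IsSymm) (hW : ∀ x, (W x).im < 0) {u f : ι → ℂ}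
    (h : (Kmat A W).mulVec u = f) : u = (Gr A W).mulVec f := by
  rw [← h, Matrix.mulVec_mulVec, Gr_mul_Kmat hA hW, Matrix.one_mulVec]

theorem Kmat_mulVec_Gr_mulVec (hA : A.IsSymm) (hW : ∀ x, (W x).im < 0) (f : ι → ℂ) :
    (Kmat A W).mulVec ((Gr A W).mulVec f) = f := by
  rw [Matrix.mulVec_mulVec, Kmat_mul_Gr hA hW, Matrix.one_mulVec]

/-- the resolvent compressed to a strongly absorbing set is bounded by `1/γ` -/
theorem layer_solve (hA : A.IsSymm) (hW : ∀ x, (W x).im < 0) (hγ : 0 < γ) (L : Finset ι)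
    (hL : ∀ x ∈ L, (W x).im ≤ -γ) (f : ι → ℂ) (hf : ∀ x, x ∉ L → f x = 0) :
    ∑ x ∈ L, ‖(Gr A W).mulVec f x‖ ^ 2 ≤ (1 / γ ^ 2) * ∑ x ∈ L, ‖f x‖ ^ 2 := by
  obtain ⟨u, hu⟩ : ∃ u, u = (Gr A W).mulVec f := ⟨_, rfl⟩
  have hKu : (Kmat A W).mulVec u = f := by rw [hu, Kmat_mulVec_Gr_mulVec hA hW]
  rw [← hu]
  have h1 := im_quadratic (W := W) hA u
  rw [hKu] at h1
  set a := ∑ x ∈ L, ‖u x‖ ^ 2 with ha
  set b := ∑ x ∈ L, ‖f x‖ ^ 2 with hb
  have ha0 : 0 ≤ a := Finset.sum_nonneg fun y _ => sq_nonneg _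
  have hb0 : 0 ≤ b := Finset.sum_nonneg fun y _ => sq_nonneg _
  have e2 : γ * a ≤ -(∑ x, (starRingEnd ℂ) (u x) * f x).im := by
    rw [h1, ha, Finset.mul_sum, ← Finset.sum_neg_distrib]
    calc ∑ x ∈ L, γ * ‖u x‖ ^ 2 ≤ ∑ x ∈ L, -((W x).im * ‖u x‖ ^ 2) :=
          Finset.sum_le_sum fun x hx => by
            have := mul_le_mul_of_nonneg_right (hL x hx) (sq_nonneg ‖u x‖)
            linarith
      _ ≤ ∑ x, -((W x).im * ‖u x‖ ^ 2) :=
          Finset.sum_le_sum_of_subset_of_nonneg (Finset.subset_univ _) fun x _ _ => by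
            have := mul_nonneg (neg_nonneg.2 (hW x).le) (sq_nonneg ‖u x‖)
            linarith
  have e3 : -(∑ x, (starRingEnd ℂ) (u x) * f x).im ≤ ∑ x ∈ L, ‖u x‖ * ‖f x‖ := by
    have h4 : ∑ x, (starRingEnd ℂ) (u x) * f x = ∑ x ∈ L, (starRingEnd ℂ) (u x) * f x := by
      symm
      refine Finset.sum_subset (Finset.subset_univ _) fun x _ hx => ?_
      rw [hf x hx, mul_zero]
    rw [h4]
    refine (neg_le_abs _).trans ((Complex.abs_im_le_norm _).trans ((norm_sum_le _ _).trans ?_))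
    exact (Finset.sum_congr rfl fun w _ => by rw [norm_mul, RCLike.norm_conj]).le
  have e4 : (∑ w ∈ L, ‖u w‖ * ‖f w‖) ^ 2 ≤ a * b := Finset.sum_mul_sq_le_sq_mul_sq L _ _
  have e5 : (γ * a) ^ 2 ≤ a * b :=
    (pow_le_pow_left₀ (by clear * - hγ ha0; positivity) (e2.trans e3) 2).trans e4
  rw [one_div, inv_mul_eq_div, le_div_iff₀ (by positivity)]
  rcases ha0.eq_or_lt with h7 | h7
  · rw [← h7, zero_mul]
    exact hb0
  · have h8 : (a * γ ^ 2) * a ≤ b * a := by linarith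
    exact le_of_mul_le_mul_right h8 h7

/-- resolvent identity -/
theorem Gr_sub (hA : A.IsSymm) (hA' : A'.IsSymm) (hW : ∀ x, (W x).im < 0)
    (hW' : ∀ x, (W' x).im < 0) :
    Gr A' W' = Gr A W + Gr A' W' * ((Kmat A W - Kmat A' W') * Gr A W) := by
  rw [Matrix.sub_mul, Matrix.mul_sub, ← Matrix.mul_assoc (Gr A' W') (Kmat A' W'),
    Gr_mul_Kmat hA' hW', Kmat_mul_Gr hA hW, Matrix.mul_one, Matrix.one_mul]
  abel

/-- `K - K'` is supported on `L × L` and has norm at most `τ` there -/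
structure Local (A A' : Matrix ι ι ℝ) (W W' : ι → ℂ) (L : Finset ι) (τ : ℝ) : Prop where
  supp : ∀ x y, (x ∉ L ∨ y ∉ L) → Kmat A W x y - Kmat A' W' x y = 0
  bound : ∀ u : ι → ℂ, ∑ x ∈ L, ‖∑ y ∈ L, (Kmat A W x y - Kmat A' W' x y) * u y‖ ^ 2 ≤
    τ ^ 2 * ∑ y ∈ L, ‖u y‖ ^ 2

theorem Local.mulVec {L : Finset ι} (h : Local A A' W W' L τ) (u : ι → ℂ) (x : ι) :
    (Kmat A W - Kmat A' W').mulVec u x =
      if x ∈ L then ∑ y ∈ L, (Kmat A W x y - Kmat A' W' x y) * u y else 0 := by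
  rw [Matrix.mulVec, dotProduct]
  split_ifs with hx
  · symm
    refine Finset.sum_subset (Finset.subset_univ _) fun y _ hy => ?_
    rw [h.supp x y (Or.inr hy), zero_mul]
  · refine Finset.sum_eq_zero fun y _ => ?_
    rw [Matrix.sub_apply, h.supp x y (Or.inl hx), zero_mul]

theorem Local.sum_mulVec {L : Finset ι} (h : Local A A' W W' L τ) (u : ι → ℂ) :
    ∑ x ∈ L, ‖(Kmat A W - Kmat A' W').mulVec u x‖ ^ 2 ≤ τ ^ 2 * ∑ y ∈ L, ‖u y‖ ^ 2 := by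
  refine le_trans (le_of_eq ?_) (h.bound u)
  refine Finset.sum_congr rfl fun x hx => ?_
  rw [h.mulVec, if_pos hx]

/-- Minkowski for finite `ℓ²` sums -/
theorem l2_add_le (L : Finset ι) (f g : ι → ℂ) {a b : ℝ} (ha : 0 ≤ a) (hb : 0 ≤ b)
    (hf : ∑ x ∈ L, ‖f x‖ ^ 2 ≤ a ^ 2) (hg : ∑ x ∈ L, ‖g x‖ ^ 2 ≤ b ^ 2) :
    ∑ x ∈ L, ‖f x + g x‖ ^ 2 ≤ (a + b) ^ 2 := by
  have h1 : ∑ x ∈ L, ‖f x + g x‖ ^ 2 ≤
      ∑ x ∈ L, (‖f x‖ ^ 2 + 2 * (‖f x‖ * ‖g x‖) + ‖g x‖ ^ 2) := by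
    refine Finset.sum_le_sum fun x _ => ?_
    have h2 := norm_add_le (f x) (g x)
    have h3 := pow_le_pow_left₀ (norm_nonneg _) h2 2
    nlinarith [h3]
  rw [Finset.sum_add_distrib, Finset.sum_add_distrib, ← Finset.mul_sum] at h1
  have h4 : (∑ x ∈ L, ‖f x‖ * ‖g x‖) ^ 2 ≤ (a * b) ^ 2 := by
    refine (Finset.sum_mul_sq_le_sq_mul_sq L _ _).trans ?_
    rw [mul_pow]
    exact mul_le_mul hf hg (Finset.sum_nonneg fun _ _ => sq_nonneg _) (sq_nonneg _)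
  have h5 : ∑ x ∈ L, ‖f x‖ * ‖g x‖ ≤ a * b := le_of_sq_le_sq h4 (by positivity)
  nlinarith [h1, hf, hg, h5]

/-- INSENSITIVITY: a perturbation supported on an absorbing set changes the amplitudes on that set
only by a bounded factor -/
theorem insens (hA : A.IsSymm) (hA' : A'.IsSymm) (hW : ∀ x, (W x).im < 0)
    (hW' : ∀ x, (W' x).im < 0) (hγ : 0 < γ) (hτ : 0 ≤ τ) {L : Finset ι}
    (hL : ∀ x ∈ L, (W' x).im ≤ -γ) (hT : Local A A' W W' L τ) (b : ι) :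
    ∑ x ∈ L, ‖Gr A' W' x b‖ ^ 2 ≤ (1 + τ / γ) ^ 2 * ∑ x ∈ L, ‖Gr A W x b‖ ^ 2 := by
  obtain ⟨u, hu⟩ : ∃ u : ι → ℂ, u = fun x => Gr A W x b := ⟨_, rfl⟩
  obtain ⟨f, hf⟩ : ∃ f : ι → ℂ, f = (Kmat A W - Kmat A' W').mulVec u := ⟨_, rfl⟩
  have h1 : ∀ x, Gr A' W' x b = u x + (Gr A' W').mulVec f x := by
    intro x
    conv_lhs => rw [Gr_sub hA hA' hW hW']
    rw [Matrix.add_apply, hu, hf]
    congr 1
    rw [Matrix.mul_apply, Matrix.mulVec, dotProduct]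
    refine Finset.sum_congr rfl fun y _ => ?_
    congr 1
    rw [hu]
    rfl
  obtain ⟨s, hs0, hs⟩ : ∃ s : ℝ, 0 ≤ s ∧ s ^ 2 = ∑ x ∈ L, ‖u x‖ ^ 2 :=
    ⟨Real.sqrt _, Real.sqrt_nonneg _, Real.sq_sqrt (Finset.sum_nonneg fun _ _ => sq_nonneg _)⟩
  have hfL : ∀ x, x ∉ L → f x = 0 := by
    intro x hx
    rw [hf, hT.mulVec, if_neg hx]
  have h2 : ∑ x ∈ L, ‖(Gr A' W').mulVec f x‖ ^ 2 ≤ (τ / γ * s) ^ 2 := by
    refine (layer_solve hA' hW' hγ L hL f hfL).trans ?_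
    have h3 := hT.sum_mulVec u
    rw [← hf, ← hs] at h3
    calc 1 / γ ^ 2 * ∑ x ∈ L, ‖f x‖ ^ 2 ≤ 1 / γ ^ 2 * (τ ^ 2 * s ^ 2) :=
          mul_le_mul_of_nonneg_left h3 (by positivity)
      _ = (τ / γ * s) ^ 2 := by ring
  have h4 := l2_add_le L u ((Gr A' W').mulVec f) hs0 (by positivity) hs.ge h2
  calc ∑ x ∈ L, ‖Gr A' W' x b‖ ^ 2 = ∑ x ∈ L, ‖u x + (Gr A' W').mulVec f x‖ ^ 2 :=
        Finset.sum_congr rfl fun x _ => by rw [h1]
    _ ≤ (s + τ / γ * s) ^ 2 := h4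
    _ = (1 + τ / γ) ^ 2 * s ^ 2 := by ring
    _ = (1 + τ / γ) ^ 2 * ∑ x ∈ L, ‖Gr A W x b‖ ^ 2 := by rw [hs, hu]

theorem insens_hs (hA : A.IsSymm) (hA' : A'.IsSymm) (hW : ∀ x, (W x).im < 0)
    (hW' : ∀ x, (W' x).im < 0) (hγ : 0 < γ) (hτ : 0 ≤ τ) {L : Finset ι}
    (hL : ∀ x ∈ L, (W' x).im ≤ -γ) (hT : Local A A' W W' L τ) (B : Finset ι) :
    hs (Gr A' W') L B ≤ (1 + τ / γ) ^ 2 * hs (Gr A W) L B := by
  unfold hs
  rw [Finset.sum_comm, Finset.sum_comm (s := L), Finset.mul_sum]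
  exact Finset.sum_le_sum fun b _ => insens hA hA' hW hW' hγ hτ hL hT b

/-- CROSSING: if `a` and `b` are decoupled in `K'`, the amplitude factorizes through the layer -/
theorem cross (hA : A.IsSymm) (hA' : A'.IsSymm) (hW : ∀ x, (W x).im < 0)
    (hW' : ∀ x, (W' x).im < 0) {L : Finset ι} (hT : Local A A' W W' L τ) (a b : ι)
    (hab : Gr A' W' a b = 0) :
    ‖Gr A W a b‖ ^ 2 ≤ τ ^ 2 * (∑ x ∈ L, ‖Gr A' W' a x‖ ^ 2) * ∑ y ∈ L, ‖Gr A W y b‖ ^ 2 := by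
  obtain ⟨u, hu⟩ : ∃ u : ι → ℂ, u = fun x => Gr A W x b := ⟨_, rfl⟩
  obtain ⟨f, hf⟩ : ∃ f : ι → ℂ, f = (Kmat A W - Kmat A' W').mulVec u := ⟨_, rfl⟩
  have h1 : Gr A' W' a b = u a + (Gr A' W').mulVec f a := by
    conv_lhs => rw [Gr_sub hA hA' hW hW']
    rw [Matrix.add_apply, hu, hf]
    congr 1
    rw [Matrix.mul_apply, Matrix.mulVec, dotProduct]
    refine Finset.sum_congr rfl fun y _ => ?_
    congr 1
    rw [hu]
    rfl
  rw [hab] at h1
  have h2 : ‖Gr A W a b‖ = ‖(Gr A' W').mulVec f a‖ := by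
    have h3 : Gr A W a b = -((Gr A' W').mulVec f a) := by
      have : Gr A W a b = u a := by rw [hu]
      rw [this]
      exact eq_neg_of_add_eq_zero_left h1.symm
    rw [h3, norm_neg]
  have h3 : (Gr A' W').mulVec f a = ∑ x ∈ L, Gr A' W' a x * f x := by
    rw [Matrix.mulVec, dotProduct]
    symm
    refine Finset.sum_subset (Finset.subset_univ _) fun x _ hx => ?_
    rw [hf, hT.mulVec, if_neg hx, mul_zero]
  have h4 : ‖(Gr A' W').mulVec f a‖ ≤ ∑ x ∈ L, ‖Gr A' W' a x‖ * ‖f x‖ := by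
    rw [h3]
    exact (norm_sum_le _ _).trans (Finset.sum_congr rfl fun _ _ => norm_mul _ _).le
  have h5 : (∑ x ∈ L, ‖Gr A' W' a x‖ * ‖f x‖) ^ 2 ≤
      (∑ x ∈ L, ‖Gr A' W' a x‖ ^ 2) * ∑ x ∈ L, ‖f x‖ ^ 2 := Finset.sum_mul_sq_le_sq_mul_sq L _ _
  have h6 := hT.sum_mulVec u
  rw [← hf] at h6
  rw [h2]
  calc ‖(Gr A' W').mulVec f a‖ ^ 2 ≤ (∑ x ∈ L, ‖Gr A' W' a x‖ * ‖f x‖) ^ 2 :=
        pow_le_pow_left₀ (norm_nonneg _) h4 2
    _ ≤ (∑ x ∈ L, ‖Gr A' W' a x‖ ^ 2) * ∑ x ∈ L, ‖f x‖ ^ 2 := h5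
    _ ≤ (∑ x ∈ L, ‖Gr A' W' a x‖ ^ 2) * (τ ^ 2 * ∑ y ∈ L, ‖u y‖ ^ 2) :=
        mul_le_mul_of_nonneg_left h6 (Finset.sum_nonneg fun _ _ => sq_nonneg _)
    _ = _ := by rw [hu]; ring

theorem cross_hs (hA : A.IsSymm) (hA' : A'.IsSymm) (hW : ∀ x, (W x).im < 0)
    (hW' : ∀ x, (W' x).im < 0) {L : Finset ι} (hT : Local A A' W W' L τ) (S B : Finset ι)
    (hSB : ∀ a ∈ S, ∀ b ∈ B, Gr A' W' a b = 0) :
    hs (Gr A W) S B ≤ τ ^ 2 * hs (Gr A' W') S L * hs (Gr A W) L B := by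
  have h1 : hs (Gr A W) L B = ∑ b ∈ B, ∑ y ∈ L, ‖Gr A W y b‖ ^ 2 := by
    unfold hs
    rw [Finset.sum_comm]
  rw [h1]
  unfold hs
  rw [mul_assoc, Finset.sum_mul_sum, Finset.mul_sum]
  refine Finset.sum_le_sum fun a ha => ?_
  rw [Finset.mul_sum]
  refine Finset.sum_le_sum fun b hb => ?_
  have := cross hA hA' hW hW' hT a b (hSB a ha b hb)
  rw [mul_assoc] at this
  exact this

/-- no bonds between `R` and its complement -/
def Dec (A : Matrix ι ι ℝ) (R : ι → Prop) : Prop :=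
  ∀ x y, (R x ∧ ¬ R y ∨ ¬ R x ∧ R y) → A x y = 0

theorem Gr_dec (hA : A.IsSymm) (hW : ∀ x, (W x).im < 0) {R : ι → Prop} (hD : Dec A R) {a b : ι}
    (hab : R a ∧ ¬ R b ∨ ¬ R a ∧ R b) : Gr A W a b = 0 := by
  classical
  -- by symmetry we treat `R a`, `¬ R b` for `R` and its complement
  have key : ∀ (R : ι → Prop), Dec A R → ∀ a b, R a → ¬ R b → Gr A W a b = 0 := by
    intro R hD a b ha hb
    obtain ⟨v, hv⟩ : ∃ v : ι → ℂ, v = fun x => if R x then Gr A W x b else 0 := ⟨_, rfl⟩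
    have h1 : (Kmat A W).mulVec v = 0 := by
      funext x
      rw [Kmat_mulVec, Pi.zero_apply]
      by_cases hx : R x
      · have h2 := Kmat_mulVec_Gr hA hW b x
        rw [if_neg (by rintro rfl; exact hb hx), Kmat_mulVec] at h2
        rw [← h2]
        congr 1
        · refine Finset.sum_congr rfl fun y _ => ?_
          by_cases hy : R y
          · rw [hv]; simp only [if_pos hy]
          · rw [hD x y (Or.inl ⟨hx, hy⟩)]; simp
        · rw [hv]; simp only [if_pos hx]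
      · have h3 : v x = 0 := by rw [hv]; simp only [if_neg hx]
        rw [h3, mul_zero, add_zero]
        refine Finset.sum_eq_zero fun y _ => ?_
        by_cases hy : R y
        · rw [hD x y (Or.inr ⟨hx, hy⟩)]; simp
        · rw [hv]; simp only [if_neg hy, mul_zero]
    have h4 := eq_Gr_mulVec hA hW h1
    rw [Matrix.mulVec_zero] at h4
    have h5 := congrFun h4 a
    rw [hv] at h5
    simpa only [if_pos ha, Pi.zero_apply] using h5
  rcases hab with ⟨ha, hb⟩ | ⟨ha, hb⟩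
  · exact key R hD a b ha hb
  · refine key (fun x => ¬ R x) (fun x y h => hD x y ?_) a b ha (not_not.2 hb)
    rcases h with ⟨h1, h2⟩ | ⟨h1, h2⟩
    · exact Or.inr ⟨h1, not_not.1 h2⟩
    · exact Or.inl ⟨not_not.1 h1, h2⟩

/-- the Green matrix of a decoupled block is the block of the Green matrix -/
theorem Gr_block {κ : Type*} [Fintype κ] [DecidableEq κ] (hA : A.IsSymm)
    (hW : ∀ x, (W x).im < 0) (e : κ → ι) (he : Function.Injective e)
    (hD : Dec A (fun x => x ∈ Set.range e)) (i j : κ) :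
    Gr A W (e i) (e j) = Gr (A.submatrix e e) (fun k => W (e k)) i j := by
  have hAe : (A.submatrix e e).IsSymm := by
    ext k l
    exact hA.apply _ _
  obtain ⟨v, hv⟩ : ∃ v : κ → ℂ, v = fun k => Gr A W (e k) (e j) := ⟨_, rfl⟩
  have h1 : (Kmat (A.submatrix e e) (fun k => W (e k))).mulVec v =
      fun k => if k = j then 1 else 0 := by
    funext k
    have h2 := Kmat_mulVec_Gr hA hW (e j) (e k)
    have h3 : (if e k = e j then (1 : ℂ) else 0) = if k = j then 1 else 0 := by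
      simp only [he.eq_iff]
    rw [← h3, ← h2, Kmat_mulVec, Kmat_mulVec]
    congr 1
    · have h4 : ∑ y : ι, (A (e k) y : ℂ) * Gr A W y (e j) =
          ∑ y ∈ Finset.univ.image e, (A (e k) y : ℂ) * Gr A W y (e j) := by
        symm
        refine Finset.sum_subset (Finset.subset_univ _) fun y _ hy => ?_
        have h5 : y ∉ Set.range e := by
          rintro ⟨l, rfl⟩
          exact hy (Finset.mem_image_of_mem e (Finset.mem_univ l))
        rw [hD (e k) y (Or.inl ⟨⟨k, rfl⟩, h5⟩)]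
        simp
      rw [h4, Finset.sum_image (fun x _ y _ h => he h)]
      refine Finset.sum_congr rfl fun l _ => ?_
      rw [hv]
      rfl
    · rw [hv]
  have h6 := eq_Gr_mulVec hAe (fun k => hW (e k)) h1
  have h7 := congrFun h6 i
  rw [hv] at h7
  simp only at h7
  rw [h7, Matrix.mulVec, dotProduct, Finset.sum_eq_single j]
  · rw [if_pos rfl, mul_one]
  · intro l _ hl
    rw [if_neg hl, mul_zero]
  · intro h
    exact absurd (Finset.mem_univ j) h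

/-- Schur test for a real symmetric matrix -/
theorem schur_test {T : ι → ι → ℝ} (hT : ∀ x y, T x y = T y x) (hτ : 0 ≤ τ) (L : Finset ι)
    (h : ∀ x ∈ L, ∑ y ∈ L, |T x y| ≤ τ) (u : ι → ℂ) :
    ∑ x ∈ L, ‖∑ y ∈ L, (T x y : ℂ) * u y‖ ^ 2 ≤ τ ^ 2 * ∑ y ∈ L, ‖u y‖ ^ 2 := by
  have h1 : ∀ x ∈ L, ‖∑ y ∈ L, (T x y : ℂ) * u y‖ ^ 2 ≤
      τ * ∑ y ∈ L, |T x y| * ‖u y‖ ^ 2 := by
    intro x hx
    have h2 : ‖∑ y ∈ L, (T x y : ℂ) * u y‖ ≤
        ∑ y ∈ L, Real.sqrt |T x y| * (Real.sqrt |T x y| * ‖u y‖) := by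
      refine (norm_sum_le _ _).trans (le_of_eq (Finset.sum_congr rfl fun y _ => ?_))
      rw [norm_mul, Complex.norm_real, Real.norm_eq_abs, ← mul_assoc,
        Real.mul_self_sqrt (abs_nonneg _)]
    have h3 := Finset.sum_mul_sq_le_sq_mul_sq L (fun y => Real.sqrt |T x y|)
      (fun y => Real.sqrt |T x y| * ‖u y‖)
    have h4 : ∑ y ∈ L, Real.sqrt |T x y| ^ 2 = ∑ y ∈ L, |T x y| :=
      Finset.sum_congr rfl fun y _ => Real.sq_sqrt (abs_nonneg _)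
    have h5 : ∑ y ∈ L, (Real.sqrt |T x y| * ‖u y‖) ^ 2 = ∑ y ∈ L, |T x y| * ‖u y‖ ^ 2 :=
      Finset.sum_congr rfl fun y _ => by rw [mul_pow, Real.sq_sqrt (abs_nonneg _)]
    rw [h4, h5] at h3
    calc ‖∑ y ∈ L, (T x y : ℂ) * u y‖ ^ 2
        ≤ (∑ y ∈ L, Real.sqrt |T x y| * (Real.sqrt |T x y| * ‖u y‖)) ^ 2 :=
          pow_le_pow_left₀ (norm_nonneg _) h2 2
      _ ≤ (∑ y ∈ L, |T x y|) * ∑ y ∈ L, |T x y| * ‖u y‖ ^ 2 := h3
      _ ≤ τ * ∑ y ∈ L, |T x y| * ‖u y‖ ^ 2 :=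
          mul_le_mul_of_nonneg_right (h x hx)
            (Finset.sum_nonneg fun y _ => mul_nonneg (abs_nonneg _) (sq_nonneg _))
  calc ∑ x ∈ L, ‖∑ y ∈ L, (T x y : ℂ) * u y‖ ^ 2
      ≤ ∑ x ∈ L, τ * ∑ y ∈ L, |T x y| * ‖u y‖ ^ 2 := Finset.sum_le_sum h1
    _ = τ * ∑ y ∈ L, (∑ x ∈ L, |T y x|) * ‖u y‖ ^ 2 := by
        rw [← Finset.mul_sum, Finset.sum_comm]
        congr 1
        refine Finset.sum_congr rfl fun y _ => ?_
        rw [Finset.sum_mul]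
        exact Finset.sum_congr rfl fun x _ => by rw [hT]
    _ ≤ τ * ∑ y ∈ L, τ * ‖u y‖ ^ 2 := by
        refine mul_le_mul_of_nonneg_left (Finset.sum_le_sum fun y hy => ?_) hτ
        exact mul_le_mul_of_nonneg_right (h y hy) (sq_nonneg _)
    _ = τ ^ 2 * ∑ y ∈ L, ‖u y‖ ^ 2 := by
        rw [← Finset.mul_sum]
        ring

/-- cutting or adding bonds inside `L × L` -/
theorem Local.of_bonds (hA : A.IsSymm) (hA' : A'.IsSymm) {L : Finset ι} (hτ : 0 ≤ τ)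
    (hs : ∀ x y, (x ∉ L ∨ y ∉ L) → A x y = A' x y)
    (hb : ∀ x ∈ L, ∑ y ∈ L, |A x y - A' x y| ≤ τ) : Local A A' W W L τ where
  supp := by
    intro x y h
    rw [Kmat, Kmat, Matrix.add_apply, Matrix.add_apply, Matrix.map_apply, Matrix.map_apply,
      hs x y h]
    ring
  bound := by
    intro u
    have h1 := schur_test (T := fun x y => A x y - A' x y)
      (fun x y => by simp only [hA.apply x y, hA'.apply x y]) hτ L hb u
    refine le_trans (le_of_eq (Finset.sum_congr rfl fun x _ => ?_)) h1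
    congr 2
    refine Finset.sum_congr rfl fun y _ => ?_
    rw [Kmat, Kmat, Matrix.add_apply, Matrix.add_apply, Matrix.map_apply, Matrix.map_apply]
    push_cast
    ring

/-- changing the potential inside `L` by at most `τ` -/
theorem Local.of_pot {L : Finset ι} (hτ : 0 ≤ τ) (hs : ∀ x, x ∉ L → W x = W' x)
    (hb : ∀ x ∈ L, ‖W x - W' x‖ ≤ τ) : Local A A W W' L τ where
  supp := by
    intro x y h
    rw [Kmat, Kmat, Matrix.add_apply, Matrix.add_apply, Matrix.diagonal_apply,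
      Matrix.diagonal_apply]
    by_cases hxy : x = y
    · subst hxy
      rw [if_pos rfl, if_pos rfl, hs x (by tauto)]
      ring
    · rw [if_neg hxy, if_neg hxy]
      ring
  bound := by
    intro u
    rw [Finset.mul_sum]
    refine Finset.sum_le_sum fun x hx => ?_
    have h1 : ∑ y ∈ L, (Kmat A W x y - Kmat A W' x y) * u y = (W x - W' x) * u x := by
      rw [Finset.sum_eq_single x]
      · rw [Kmat, Kmat, Matrix.add_apply, Matrix.add_apply, Matrix.diagonal_apply_eq,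
          Matrix.diagonal_apply_eq]
        ring
      · intro y _ hy
        rw [Kmat, Kmat, Matrix.add_apply, Matrix.add_apply,
          Matrix.diagonal_apply_ne _ (Ne.symm hy), Matrix.diagonal_apply_ne _ (Ne.symm hy)]
        ring
      · intro h
        exact absurd hx h
    rw [h1, norm_mul, mul_pow]
    exact mul_le_mul_of_nonneg_right (pow_le_pow_left₀ (norm_nonneg _) (hb x hx) 2) (sq_nonneg _)

end P365L.Comp
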