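import Vale.Agent.P365.Comp.Scale
import Mathlib.MeasureTheory.Integral.Marginal

set_option linter.all false

/-!
# P365 / Comp / Dom: domination of product measures, the law `background + γ · Cauchy`.
-/

namespace P365L.Comp

open MeasureTheory ProbabilityTheory Complex
open P365L
open scoped ENNReal Real

variable {ι : Type*} [Fintype ι] [DecidableEq ι]
variable {α : Type*} [MeasurableSpace α]

/-- `μ ≤ C • ν` on one site gives `C ^ N` on `N` sites -/
theorem lintegral_pi_dom {μ ν : Measure α} [IsProbabilityMeasure μ] [IsProbabilityMeasure ν]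
    {C : ℝ≥0∞} (h : μ ≤ C • ν) {F : (ι → α) → ℝ≥0∞} (hF : Measurable F) :
    ∫⁻ c, F c ∂(Measure.pi fun _ : ι => μ) ≤
      C ^ Fintype.card ι * ∫⁻ c, F c ∂(Measure.pi fun _ : ι => ν) := by
  have key : ∀ (s : Finset ι) (x : ι → α),
      lmarginal (fun _ : ι => μ) s F x ≤ C ^ s.card * lmarginal (fun _ : ι => ν) s F x := by
    intro s
    induction s using Finset.induction_on with
    | empty => intro x; simp
    | insert i s hi ih =>
      intro x
      rw [lmarginal_insert F hF hi, lmarginal_insert F hF hi, Finset.card_insert_of_notMem hi]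
      have hm : Measurable fun t : α => lmarginal (fun _ : ι => ν) s F (Function.update x i t) :=
        (hF.lmarginal (fun _ : ι => ν)).comp (_root_.measurable_update x)
      calc ∫⁻ t, lmarginal (fun _ : ι => μ) s F (Function.update x i t) ∂μ
          ≤ ∫⁻ t, C ^ s.card * lmarginal (fun _ : ι => ν) s F (Function.update x i t) ∂μ :=
            lintegral_mono fun t => ih _
        _ = C ^ s.card * ∫⁻ t, lmarginal (fun _ : ι => ν) s F (Function.update x i t) ∂μ :=
            lintegral_const_mul _ hm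
        _ ≤ C ^ s.card * ∫⁻ t, lmarginal (fun _ : ι => ν) s F (Function.update x i t)
              ∂(C • ν) := by
            gcongr
        _ = C ^ (s.card + 1) * ∫⁻ t, lmarginal (fun _ : ι => ν) s F (Function.update x i t)
              ∂ν := by
            rw [lintegral_smul_measure, smul_eq_mul, pow_succ, mul_assoc]
  have h2 := nonempty_of_isProbabilityMeasure μ
  obtain ⟨a⟩ := h2
  rw [lintegral_eq_lmarginal_univ (fun _ => a), lintegral_eq_lmarginal_univ (fun _ => a)]
  exact key Finset.univ _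

/-- the law of one site: background plus `γ` times a Cauchy variable -/
noncomputable def qlaw (γ : ℝ) (ρ : Measure ℝ) : Measure ℝ :=
  (ρ.prod nu).map fun t => t.1 + γ * t.2

theorem measurable_qf (γ : ℝ) : Measurable fun t : ℝ × ℝ => t.1 + γ * t.2 := by fun_prop

instance (γ : ℝ) (ρ : Measure ℝ) [IsProbabilityMeasure ρ] : IsProbabilityMeasure (qlaw γ ρ) :=
  Measure.isProbabilityMeasure_map (measurable_qf γ).aemeasurable

/-- expectations under the product of `qlaw` -/
theorem lintegral_qlaw_pi (γ : ℝ) (ρ : Measure ℝ) [IsProbabilityMeasure ρ]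
    {F : (ι → ℝ) → ℝ≥0∞} (hF : Measurable F) :
    ∫⁻ V, F V ∂(Measure.pi fun _ : ι => qlaw γ ρ) =
      ∫⁻ w, ∫⁻ c, F (fun x => w x + γ * c x) ∂(mu ι) ∂(Measure.pi fun _ : ι => ρ) := by
  have h1 : MeasurePreserving (fun (a : ι → ℝ × ℝ) (i : ι) => (a i).1 + γ * (a i).2)
      (Measure.pi fun _ : ι => ρ.prod nu) (Measure.pi fun _ : ι => qlaw γ ρ) :=
    measurePreserving_pi _ _ fun i => ⟨measurable_qf γ, rfl⟩
  have h2 := measurePreserving_arrowProdEquivProdArrow ℝ ℝ ι (fun _ => ρ) (fun _ => nu)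
  rw [← h1.lintegral_comp hF]
  have hG : Measurable fun q : (ι → ℝ) × (ι → ℝ) => F (fun x => q.1 x + γ * q.2 x) := by
    refine hF.comp (measurable_pi_lambda _ fun x => ?_)
    exact ((measurable_pi_apply x).comp measurable_fst).add
      (((measurable_pi_apply x).comp measurable_snd).const_mul _)
  have h3 := h2.lintegral_comp hG
  have h4 : ∫⁻ a : ι → ℝ × ℝ, F (fun i => (a i).1 + γ * (a i).2)
      ∂(Measure.pi fun _ : ι => ρ.prod nu) =
      ∫⁻ q : (ι → ℝ) × (ι → ℝ), F (fun x => q.1 x + γ * q.2 x)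
        ∂((Measure.pi fun _ : ι => ρ).prod (Measure.pi fun _ : ι => nu)) := by
    rw [← h3]
    rfl
  rw [h4]
  exact lintegral_prod _ hG.aemeasurable

/-- one site: shifting the Cauchy variable by `a` costs at most a factor `(1 + |a|)^2` -/
theorem lintegral_shift_le (a : ℝ) {f : ℝ → ℝ≥0∞} (hf : Measurable f) :
    ∫⁻ t, f (t + a) ∂nu ≤ ENNReal.ofReal ((1 + |a|) ^ 2) * ∫⁻ t, f t ∂nu := by
  rw [P365F.nu_lintegral (f := fun t => f (t + a)) (by fun_prop), P365F.nu_lintegral hf,
    ← lintegral_const_mul _ (by fun_prop)]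
  have h1 := lintegral_add_right_eq_self (μ := (volume : Measure ℝ))
    (fun y => ENNReal.ofReal (π⁻¹ * ((y - a) ^ 2 + 1)⁻¹) * f y) a
  simp only [add_sub_cancel_right] at h1
  rw [h1]
  refine lintegral_mono fun t => ?_
  rw [← mul_assoc, ← ENNReal.ofReal_mul (by positivity)]
  refine mul_le_mul_of_nonneg_right (ENNReal.ofReal_le_ofReal ?_) zero_le
  have h2 : (0 : ℝ) < (t - a) ^ 2 + 1 := by positivity
  have h3 : (0 : ℝ) < t ^ 2 + 1 := by positivity
  have h4 : t ^ 2 + 1 ≤ (1 + |a|) ^ 2 * ((t - a) ^ 2 + 1) := by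
    have h5 : |t| ≤ |t - a| + |a| := by
      calc |t| = |(t - a) + a| := by ring_nf
        _ ≤ |t - a| + |a| := abs_add_le _ _
    have h6 : t ^ 2 ≤ (|t - a| + |a|) ^ 2 := by
      rw [← sq_abs t]
      exact pow_le_pow_left₀ (abs_nonneg _) h5 2
    rw [← sq_abs (t - a)]
    have h7 : 0 ≤ |t - a| := abs_nonneg _
    have h8 : 0 ≤ |a| := abs_nonneg _
    generalize |t - a| = s at *
    generalize |a| = b at *
    nlinarith [sq_nonneg (s - 1), mul_nonneg h8 (sq_nonneg (s - 1)), mul_nonneg (sq_nonneg b) (sq_nonneg s), mul_nonneg h8 (sq_nonneg s)]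
  have h9 : ((t - a) ^ 2 + 1)⁻¹ ≤ (1 + |a|) ^ 2 * (t ^ 2 + 1)⁻¹ := by
    rw [← div_eq_mul_inv, inv_eq_one_div, div_le_div_iff₀ h2 h3]
    linarith
  calc π⁻¹ * ((t - a) ^ 2 + 1)⁻¹ ≤ π⁻¹ * ((1 + |a|) ^ 2 * (t ^ 2 + 1)⁻¹) :=
        mul_le_mul_of_nonneg_left h9 (by positivity)
    _ = (1 + |a|) ^ 2 * (π⁻¹ * (t ^ 2 + 1)⁻¹) := by ring

/-- shifts of `qlaw` -/
theorem qlaw_shift_le {γ : ℝ} (hγ : 0 < γ) (ρ : Measure ℝ) [IsProbabilityMeasure ρ] (d : ℝ) :
    (qlaw γ ρ).map (fun t => t + d) ≤ ENNReal.ofReal ((1 + |d| / γ) ^ 2) • qlaw γ ρ := by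
  refine Measure.le_iff.2 fun s hs => ?_
  rw [Measure.map_apply (by fun_prop) hs, Measure.smul_apply, smul_eq_mul, qlaw,
    Measure.map_apply (measurable_qf γ) (measurable_add_const d hs),
    Measure.map_apply (measurable_qf γ) hs]
  have e1 : ∀ A : Set (ℝ × ℝ), MeasurableSet A → (ρ.prod nu) A =
      ∫⁻ w, ∫⁻ c, A.indicator 1 (w, c) ∂nu ∂ρ := by
    intro A hA
    rw [← lintegral_indicator_one hA]
    exact lintegral_prod _ ((measurable_one.indicator hA).aemeasurable)
  have hmA : MeasurableSet ((fun t : ℝ × ℝ => t.1 + γ * t.2) ⁻¹' s) := measurable_qf γ hs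
  have hmB : MeasurableSet ((fun t : ℝ × ℝ => t.1 + γ * t.2) ⁻¹' ((fun t : ℝ => t + d) ⁻¹' s)) :=
    measurable_qf γ (measurable_add_const d hs)
  rw [e1 _ hmA, e1 _ hmB]
  have hmA' : Measurable fun w : ℝ => ∫⁻ c, ((fun t : ℝ × ℝ => t.1 + γ * t.2) ⁻¹' s).indicator 1
      (w, c) ∂nu := by
    have h1 : Measurable fun q : ℝ × ℝ => ((fun t : ℝ × ℝ => t.1 + γ * t.2) ⁻¹' s).indicator
      (1 : ℝ × ℝ → ℝ≥0∞) q := measurable_one.indicator hmA
    exact h1.lintegral_prod_right'
  rw [← lintegral_const_mul _ hmA']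
  refine lintegral_mono fun w => ?_
  have hf : Measurable fun c : ℝ => s.indicator (1 : ℝ → ℝ≥0∞) (w + γ * c) :=
    (measurable_one.indicator hs).comp (by fun_prop)
  have h2 := lintegral_shift_le (d / γ) hf
  rw [abs_div, abs_of_pos hγ] at h2
  refine le_trans (le_of_eq ?_) (h2.trans (le_of_eq ?_))
  · refine lintegral_congr fun c => ?_
    have : w + γ * (c + d / γ) = w + γ * c + d := by
      field_simp
      ring
    rw [this]
    rfl
  · rfl

/-- the conditioned (truncated) law is dominated -/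
theorem cond_le {m : Measure α} {s : Set α} (hs : MeasurableSet s) :
    ProbabilityTheory.cond m s ≤ (m s)⁻¹ • m := by
  refine Measure.le_iff.2 fun t ht => ?_
  rw [ProbabilityTheory.cond_apply hs, Measure.smul_apply, smul_eq_mul]
  gcongr
  exact Set.inter_subset_right

end P365L.Comp
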