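import Vale.Agent.P365.Comp.Ann
import Vale.Agent.P365.Inf.Box

set_option linter.all false

/-!
# P365 / Comp / Fm: from the open-conductance theorem on the torus to exponential decay of the
fractional moments in finite volume (`FMbox`).
-/

namespace P365L.Comp

open MeasureTheory ProbabilityTheory Complex P365S6
open P365L
open scoped ENNReal

variable {γ p : ℝ} {ρ : Measure ℝ}

/-- `QR` between two single sites of the box, in the notation of `FMbox` -/
theorem QR_site (ζ : ℂ) (hp : 0 < p) (M : ℕ) {y : Site} (hy : y ∈ Lam M) :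
    QR γ ζ ρ p (Lam M) ∅ {0} {y} =
      ∫⁻ u, ∫⁻ v, ENNReal.ofReal (‖GT (AL M) γ u ζ Finset.univ v ⟨y, hy⟩ (oL M)‖ ^ p)
        ∂(mu (Lam M)) ∂(Measure.pi fun _ : Lam M => ρ) := by
  rw [QR_comm]
  unfold QR QE
  have h1 : sub (Lam M) {(0 : Site)} = {oL M} := by
    ext x
    rw [mem_sub, Finset.mem_singleton, Finset.mem_singleton, Subtype.ext_iff]
    rfl
  have h2 : sub (Lam M) {y} = {⟨y, hy⟩} := by
    ext x
    rw [mem_sub, Finset.mem_singleton, Finset.mem_singleton, Subtype.ext_iff]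
  have h3 : csub (Lam M) ∅ = Finset.univ := by
    ext x
    rw [mem_csub]
    simp
  rw [h1, h2, h3]
  refine lintegral_congr fun u => lintegral_congr fun v => ?_
  unfold hs
  rw [Finset.sum_singleton, Finset.sum_singleton, sq_rpow_half (norm_nonneg _)]
  rfl

/-- decay from small annuli, in the form `FMbox` -/
theorem FMbox_of_annuli [IsProbabilityMeasure ρ] (hγ : 0 < γ) (hp : 0 < p) (hp1 : p < 1) (E : ℝ)
    (h : ∃ l0 : ℕ, ∀ l, l0 ≤ l → ∃ e1 : ℝ, 0 < e1 ∧ ∀ η : ℝ, 0 < η → η ≤ e1 →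
      GA γ (E + η * I) ρ p l ≤ ENNReal.ofReal (g0 γ p)) : P365L.Inf.FMbox γ ρ E := by
  obtain ⟨l0, hl0⟩ := h
  obtain ⟨K, C, c₀, hc₀, H⟩ := decay_of_annuli (ρ := ρ) hγ hp hp1 (l0 + 1) (by omega)
  choose! e1 he1 he1' using hl0
  obtain ⟨η₀, hη₀, hη₀'⟩ : ∃ η₀ : ℝ, 0 < η₀ ∧ ∀ l, l0 ≤ l → l ≤ K → η₀ ≤ e1 l := by
    have hne : (insert (1 : ℝ) ((Finset.Icc l0 K).image e1)).Nonempty :=
      Finset.insert_nonempty _ _
    refine ⟨(insert (1 : ℝ) ((Finset.Icc l0 K).image e1)).min' hne, ?_, ?_⟩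
    · rw [Finset.lt_min'_iff]
      intro x hx
      rw [Finset.mem_insert, Finset.mem_image] at hx
      rcases hx with rfl | ⟨l, hl, rfl⟩
      · exact one_pos
      · exact he1 l (Finset.mem_Icc.1 hl).1
    · intro l h1 h2
      refine Finset.min'_le _ _ ?_
      exact Finset.mem_insert_of_mem (Finset.mem_image_of_mem _ (Finset.mem_Icc.2 ⟨h1, h2⟩))
  refine ⟨p, C, c₀, η₀, hp, hp1.le, hc₀, hη₀, fun η hη hη1 y => ?_⟩
  filter_upwards [Filter.eventually_ge_atTop (2 * ds 0 y)] with M hM hy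
  have hζ : (0 : ℝ) < ((E : ℂ) + η * I).im := by simpa using hη
  have h1 := H (E + η * I) hζ (fun l h1 h2 => he1' l (by omega) η hη
    (hη1.trans (hη₀' l (by omega) h2))) y M hM
  rw [QR_site _ hp M hy] at h1
  exact h1

/-- the open-conductance theorem on the torus (second moment, absorption profile `prof`) -/
def OpenThm (γ E : ℝ) (ρ : Measure ℝ) : Prop :=
  ∀ θ : ℝ, 0 < θ → ∃ l0 : ℕ, ∀ l, l0 ≤ l → ∃ N : ℕ, ∃ _ : NeZero N, 4 * l + 4 ≤ N ∧
    ∃ e1 : ℝ, 0 < e1 ∧ ∀ e0 : ℝ, 0 < e0 → e0 ≤ e1 →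
      ∫ w, EEp γ (prof N l γ e0) (fun x => w x - E)
        (fun W => hs (Gr (AT N) W) (P365L.ball N l) (outr N l))
        ∂(Measure.pi fun _ : Tor N => ρ) ≤ θ

/-- the double integral of the conductance, as a Lebesgue integral -/
theorem lintegral_open [IsProbabilityMeasure ρ] {N : ℕ} [NeZero N] {l : ℕ} {e0 : ℝ} (hγ : 0 < γ)
    (he0 : 0 < e0) (E : ℝ) :
    ∫⁻ w, ∫⁻ c, ENNReal.ofReal (hs (Gr (AT N) (Wp γ (prof N l γ e0) (fun x => w x - E) c))
          (P365L.ball N l) (outr N l)) ∂(mu (Tor N)) ∂(Measure.pi fun _ : Tor N => ρ) =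
      ENNReal.ofReal (∫ w, EEp γ (prof N l γ e0) (fun x => w x - E)
        (fun W => hs (Gr (AT N) W) (P365L.ball N l) (outr N l))
        ∂(Measure.pi fun _ : Tor N => ρ)) := by
  obtain ⟨m, hm, hm1, hm2⟩ : ∃ m : ℝ, 0 < m ∧ m ≤ γ ∧ m ≤ e0 :=
    ⟨min γ e0, lt_min hγ he0, min_le_left _ _, min_le_right _ _⟩
  have him : ∀ (w c : Tor N → ℝ) (x : Tor N),
      (Wp γ (prof N l γ e0) (fun x => w x - E) c x).im ≤ -m := by
    intro w c x
    rw [Wp_im]
    unfold prof
    split_ifs <;> linarith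
  obtain ⟨C, hC⟩ : ∃ C : ℝ, ∀ w c : Tor N → ℝ,
      hs (Gr (AT N) (Wp γ (prof N l γ e0) (fun x => w x - E) c)) (P365L.ball N l) (outr N l) ≤
        C := by
    refine ⟨∑ a ∈ P365L.ball N l, ∑ b ∈ outr N l, (1 / m) ^ 2, fun w c => ?_⟩
    unfold hs
    exact Finset.sum_le_sum fun a _ => Finset.sum_le_sum fun b _ =>
      pow_le_pow_left₀ (norm_nonneg _) (norm_Gr_le (AT_symm N) hm (him w c) a b) 2
  have hmeas2 : Measurable fun q : (Tor N → ℝ) × (Tor N → ℝ) =>
      hs (Gr (AT N) (Wp γ (prof N l γ e0) (fun x => q.1 x - E) q.2)) (P365L.ball N l)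
        (outr N l) := by
    unfold hs
    refine Finset.measurable_sum _ fun a _ => Finset.measurable_sum _ fun b _ => ?_
    refine ((measurable_Gr (fun q : (Tor N → ℝ) × (Tor N → ℝ) =>
      Wp γ (prof N l γ e0) (fun x => q.1 x - E) q.2) (fun x => ?_) a b).norm).pow_const 2
    unfold Wp Poi.Wc
    have h1 : Measurable fun q : (Tor N → ℝ) × (Tor N → ℝ) => ((q.1 x - E : ℝ) : ℂ) :=
      Complex.measurable_ofReal.comp (((measurable_pi_apply x).comp measurable_fst).sub_const _)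
    have h2 : Measurable fun q : (Tor N → ℝ) × (Tor N → ℝ) => ((q.2 x : ℝ) : ℂ) :=
      Complex.measurable_ofReal.comp ((measurable_pi_apply x).comp measurable_snd)
    exact (h1.add (h2.const_mul _)).sub_const _
  have hmeas1 : ∀ w : Tor N → ℝ, Measurable fun c : Tor N → ℝ =>
      hs (Gr (AT N) (Wp γ (prof N l γ e0) (fun x => w x - E) c)) (P365L.ball N l)
        (outr N l) := by
    intro w
    unfold hs
    refine Finset.measurable_sum _ fun a _ => Finset.measurable_sum _ fun b _ => ?_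
    exact ((measurable_Gr (fun c : Tor N → ℝ =>
      Wp γ (prof N l γ e0) (fun x => w x - E) c) (fun x =>
        (measurable_pi_apply x).comp (measurable_Wp γ _ _)) a b).norm).pow_const 2
  have hint : ∀ w : Tor N → ℝ, Integrable (fun c : Tor N → ℝ =>
      hs (Gr (AT N) (Wp γ (prof N l γ e0) (fun x => w x - E) c)) (P365L.ball N l)
        (outr N l)) (mu (Tor N)) := fun w =>
    Integrable.of_bound (hmeas1 w).aestronglyMeasurable C (Filter.Eventually.of_forall fun c => by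
      rw [Real.norm_of_nonneg (hs_nonneg _ _ _)]
      exact hC w c)
  have h1 : ∀ w : Tor N → ℝ, ∫⁻ c, ENNReal.ofReal (hs (Gr (AT N) (Wp γ (prof N l γ e0)
      (fun x => w x - E) c)) (P365L.ball N l) (outr N l)) ∂(mu (Tor N)) =
      ENNReal.ofReal (EEp γ (prof N l γ e0) (fun x => w x - E)
        (fun W => hs (Gr (AT N) W) (P365L.ball N l) (outr N l))) := by
    intro w
    unfold EEp
    rw [ofReal_integral_eq_lintegral_ofReal (hint w)
      (Filter.Eventually.of_forall fun c => hs_nonneg _ _ _)]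
  simp only [h1]
  have hnn : ∀ w : Tor N → ℝ, 0 ≤ EEp γ (prof N l γ e0) (fun x => w x - E)
        (fun W => hs (Gr (AT N) W) (P365L.ball N l) (outr N l)) := fun w =>
    integral_nonneg fun c => hs_nonneg _ _ _
  rw [ofReal_integral_eq_lintegral_ofReal _ (Filter.Eventually.of_forall hnn)]
  refine Integrable.of_bound (C := C) ?_ (Filter.Eventually.of_forall fun w => ?_)
  · unfold EEp
    exact (hmeas2.stronglyMeasurable.integral_prod_right').aestronglyMeasurable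
  · rw [Real.norm_of_nonneg (hnn w)]
    unfold EEp
    calc ∫ c, hs (Gr (AT N) (Wp γ (prof N l γ e0) (fun x => w x - E) c)) (P365L.ball N l)
          (outr N l) ∂(mu (Tor N)) ≤ ∫ _c : Tor N → ℝ, C ∂(mu (Tor N)) :=
          integral_mono (hint w) (integrable_const _) fun c => hC w c
      _ = C := by simp

/-- **exponential decay of the fractional moments** from the open-conductance theorem -/
theorem FMbox_of_open [IsProbabilityMeasure ρ] (hγ : 0 < γ) (E : ℝ) (h : OpenThm γ E ρ) :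
    P365L.Inf.FMbox γ ρ E := by
  obtain ⟨p, hp, hp1⟩ : ∃ p : ℝ, 0 < p ∧ p < 1 := ⟨1 / 2, by norm_num, by norm_num⟩
  have hg := g0_pos hγ hp hp1
  obtain ⟨C, hC0, hC⟩ : ∃ C : ℝ, 0 < C ∧ C = 32 * (1 + 4 / γ) ^ 4 := ⟨_, by positivity, rfl⟩
  -- choose `δ` with `2 δ^{p/2} ≤ g0`
  obtain ⟨δ, hδ, hδ'⟩ : ∃ δ : ℝ, 0 < δ ∧ δ ^ (p / 2) ≤ g0 γ p / 2 := by
    refine ⟨(g0 γ p / 2) ^ (2 / p), Real.rpow_pos_of_pos (by positivity) _, ?_⟩
    rw [← Real.rpow_mul (by positivity)]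
    have : 2 / p * (p / 2) = 1 := by field_simp
    rw [this, Real.rpow_one]
  refine FMbox_of_annuli hγ hp hp1 E ?_
  obtain ⟨l0, hl0⟩ := h (δ / C) (by positivity)
  refine ⟨l0 + 1, fun l hl => ?_⟩
  obtain ⟨N, hN0, hN, e1, he1, H⟩ := hl0 l (by omega)
  obtain ⟨n, hn⟩ : ∃ n : ℕ, n = (mid N l).card := ⟨_, rfl⟩
  refine ⟨min e1 (γ / (2 * (n + 1))), lt_min he1 (by positivity), fun η hη hη1 => ?_⟩
  have h1 : η ≤ e1 := hη1.trans (min_le_left _ _)
  have h2 : η ≤ γ / (2 * (n + 1)) := hη1.trans (min_le_right _ _)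
  rw [le_div_iff₀ (by positivity)] at h2
  have hnR : (0 : ℝ) ≤ n := Nat.cast_nonneg n
  have h3 : η < γ := by nlinarith
  have h4 : 2 * ((mid N l).card : ℝ) * η ≤ γ := by
    rw [← hn]
    nlinarith
  refine (GA_le (N := N) (l := l) (by omega) (by omega) hγ hp hp1 hη h3 h4 E hδ).trans ?_
  rw [lintegral_open hγ hη E]
  have h5 := H η hη h1
  have h6 : 0 < δ ^ (p / 2 - 1) := Real.rpow_pos_of_pos hδ _
  rw [← hC]
  calc ENNReal.ofReal (δ ^ (p / 2)) + ENNReal.ofReal (δ ^ (p / 2 - 1) * C) *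
        ENNReal.ofReal (∫ w, EEp γ (prof N l γ η) (fun x => w x - E)
        (fun W => hs (Gr (AT N) W) (P365L.ball N l) (outr N l))
        ∂(Measure.pi fun _ : Tor N => ρ))
      ≤ ENNReal.ofReal (δ ^ (p / 2)) + ENNReal.ofReal (δ ^ (p / 2 - 1) * C) *
        ENNReal.ofReal (δ / C) := by
        gcongr
    _ = ENNReal.ofReal (δ ^ (p / 2) + δ ^ (p / 2 - 1) * C * (δ / C)) := by
        rw [← ENNReal.ofReal_mul (by positivity), ← ENNReal.ofReal_add (by positivity)
          (by positivity)]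
    _ ≤ ENNReal.ofReal (g0 γ p) := by
        refine ENNReal.ofReal_le_ofReal ?_
        have h7 : δ ^ (p / 2 - 1) * C * (δ / C) = δ ^ (p / 2) := by
          rw [Real.rpow_sub_one hδ.ne']
          field_simp
        rw [h7]
        linarith

end P365L.Comp
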