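import Vale.Agent.P365.Comp.Reg

set_option linter.all false

/-!
# P365 / Comp / Geo: the two-layer step for regions of the square lattice; balls, shells, annuli.
-/

namespace P365L.Comp

open MeasureTheory ProbabilityTheory Complex Matrix P365S6
open P365L
open scoped ENNReal

variable {γ p : ℝ} {ζ : ℂ} {ρ : Measure ℝ}

theorem cut_compl {ι : Type*} [Fintype ι] [DecidableEq ι] (A : Matrix ι ι ℝ) {R R' : Finset ι}
    (h : ∀ x, x ∈ R' ↔ x ∉ R) : cut A R = cut A R' := by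
  funext x y
  unfold cut
  have h1 : (x ∈ R ↔ y ∈ R) ↔ (x ∈ R' ↔ y ∈ R') := by
    rw [h, h]
    tauto
  simp only [h1]

theorem sub_subset_csub {X O L : Finset Site} (h : Disjoint O L) : sub X L ⊆ csub X O := by
  intro x hx
  rw [mem_csub]
  exact fun h' => (Finset.disjoint_left.1 h) h' (mem_sub.1 hx)

theorem csub_sdiff (X O L : Finset Site) : csub X O \ sub X L = csub X (O ∪ L) := by
  ext x
  rw [Finset.mem_sdiff, mem_csub, mem_sub, mem_csub, Finset.mem_union]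
  tauto

theorem QR_comm (X O S B : Finset Site) : QR γ ζ ρ p X O S B = QR γ ζ ρ p X O B S :=
  QE_comm (AF_symm X) ρ _ _ _

theorem cut_crossing {X R L : Finset Site}
    (hL : ∀ x ∈ R, ∀ y ∈ X, y ∉ R → adj x y ≠ 0 → x ∈ L ∧ y ∈ L) (W : X → ℂ) :
    Local (AF X) (cut (AF X) (sub X R)) W W (sub X L) 4 := by
  refine cut_local (AF_symm X) (sub X R) (by norm_num) ?_ (AF_row X) W
  intro x y hx hy hxy
  have h := hL x (mem_sub.1 hx) y y.2 (fun h => hy (mem_sub.2 h)) hxy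
  exact ⟨mem_sub.2 h.1, mem_sub.2 h.2⟩

/-- the outer factor, as a quantity of the cut operator -/
theorem QE_cut_outer [IsProbabilityMeasure ρ] (hγ : 0 < γ) (hζ : 0 < ζ.im) {X R : Finset Site}
    (O L : Finset Site) {B : Finset Site} (hB : Disjoint B R) :
    QE (cut (AF X) (sub X R)) γ ζ ρ p (csub X O) (sub X L) (sub X B) =
      QR γ ζ ρ p (X \ R) O L B := by
  rw [QE_comm (cut_symm (AF_symm X) _)]
  have h1 : cut (AF X) (sub X R) = cut (AF X) (sub X (X \ R)) := by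
    refine cut_compl _ fun x => ?_
    rw [mem_sub, mem_sub, Finset.mem_sdiff]
    exact ⟨fun h => h.2, fun h => ⟨x.2, h⟩⟩
  rw [h1, QE_cut_eq hγ hζ Finset.sdiff_subset O (S := B) (B := L) (fun x hx hxB =>
    Finset.mem_sdiff.2 ⟨hx, fun h => (Finset.disjoint_left.1 hB) hxB h⟩), QR_comm]

/-- THE TWO-LAYER STEP for regions -/
theorem QR_step [IsProbabilityMeasure ρ] (hγ : 0 < γ) (hζ : 0 < ζ.im) (hp : 0 < p) (hp1 : p < 1)
    {X R O L S B : Finset Site} (hR : R ⊆ X) (hOL : Disjoint O L)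
    (hL : ∀ x ∈ R, ∀ y ∈ X, y ∉ R → adj x y ≠ 0 → x ∈ L ∧ y ∈ L) (hS : S ⊆ R)
    (hB : Disjoint B R) :
    QR γ ζ ρ p X O S B ≤ ENNReal.ofReal (CS γ 4 p) *
      (QR γ ζ ρ p R (O ∪ L) S L * QR γ ζ ρ p (X \ R) (O ∪ L) L B) := by
  have h := QE_step (A := AF X) (A' := cut (AF X) (sub X R)) (γ := γ) (τ := 4) (p := p) (ζ := ζ)
    (AF_symm X) (cut_symm (AF_symm X) _) hγ (by norm_num) hζ hp hp1 ρ
    (T := csub X O) (L := sub X L) (R := sub X R) (sub_subset_csub hOL) (cut_crossing hL)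
    (cut_dec _ _) (S := sub X S) (B := sub X B)
    (fun x hx => mem_sub.2 (hS (mem_sub.1 hx)))
    (Finset.disjoint_left.2 fun x hx hx' => (Finset.disjoint_left.1 hB) (mem_sub.1 hx)
      (mem_sub.1 hx'))
  rw [csub_sdiff, QE_cut_eq hγ hζ hR (O ∪ L) (S := S) (B := L) (fun x _ hx => hS hx),
    QE_cut_outer hγ hζ (O ∪ L) L hB] at h
  exact h

/-- back from the outer region to the full region, closing the layer -/
theorem QR_return [IsProbabilityMeasure ρ] (hγ : 0 < γ) (hζ : 0 < ζ.im) (hp : 0 < p)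
    (hp1 : p < 1) {X R O L B : Finset Site} (hOL : Disjoint O L)
    (hL : ∀ x ∈ R, ∀ y ∈ X, y ∉ R → adj x y ≠ 0 → x ∈ L ∧ y ∈ L)
    (hB : Disjoint B R) :
    QR γ ζ ρ p (X \ R) (O ∪ L) L B ≤
      ENNReal.ofReal ((1 + 4 / γ) ^ p) * QR γ ζ ρ p X O L B := by
  rw [← QE_cut_outer hγ hζ (O ∪ L) L hB]
  have hdis : Disjoint (sub X L) (csub X (O ∪ L)) := by
    refine Finset.disjoint_left.2 fun x hx hx' => ?_
    exact (mem_csub.1 hx') (Finset.mem_union_right _ (mem_sub.1 hx))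
  have h1 := QE_insens (A := AF X) (A' := cut (AF X) (sub X R)) (γ := γ) (τ := 4) (p := p) (ζ := ζ)
    (AF_symm X) (cut_symm (AF_symm X) _) hγ (by norm_num) hζ hp ρ (T := csub X (O ∪ L))
    (L := sub X L) hdis (cut_crossing hL) (sub X B)
  refine h1.trans (mul_le_mul_of_nonneg_left ?_ zero_le)
  rw [← csub_sdiff]
  exact QE_open_le (AF_symm X) hγ hζ hp hp1 ρ (sub_subset_csub hOL) _ _

/-! ### translations -/

/-- translate of a finite set of sites -/
def tr (z : Site) (X : Finset Site) : Finset Site :=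
  X.image fun x => (x.1 + z.1, x.2 + z.2)

theorem mem_tr {z x : Site} {X : Finset Site} : x ∈ tr z X ↔ (x.1 - z.1, x.2 - z.2) ∈ X := by
  unfold tr
  rw [Finset.mem_image]
  constructor
  · rintro ⟨y, hy, rfl⟩
    simpa using hy
  · intro h
    exact ⟨_, h, by simp⟩

theorem QR_tr [IsProbabilityMeasure ρ] (hγ : 0 < γ) (hζ : 0 < ζ.im) (z : Site)
    (X O S B : Finset Site) :
    QR γ ζ ρ p (tr z X) (tr z O) (tr z S) (tr z B) = QR γ ζ ρ p X O S B := by
  have hmem : ∀ x : Site, ∀ Y : Finset Site, (x.1 + z.1, x.2 + z.2) ∈ tr z Y ↔ x ∈ Y := by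
    intro x Y
    rw [mem_tr]
    simp
  obtain ⟨e, he⟩ : ∃ e : X ↪ tr z X, ∀ x : X,
      ((e x : tr z X) : Site) = ((x : Site).1 + z.1, (x : Site).2 + z.2) := by
    refine ⟨⟨fun x => ⟨((x : Site).1 + z.1, (x : Site).2 + z.2), (hmem x X).2 x.2⟩, ?_⟩, ?_⟩
    · intro x y h
      have h1 := congrArg (fun q : tr z X => (q : Site)) h
      simp only [Prod.mk.injEq, add_left_inj] at h1
      exact Subtype.ext (Prod.ext h1.1 h1.2)
    · intro x
      rfl
  have hsurj : ∀ y : tr z X, ∃ x : X, e x = y := by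
    intro y
    refine ⟨⟨((y : Site).1 - z.1, (y : Site).2 - z.2), mem_tr.1 y.2⟩, ?_⟩
    apply Subtype.ext
    rw [he]
    simp
  have hD : Dec (AF (tr z X)) (fun x => x ∈ Set.range e) := by
    intro x y h
    exfalso
    have h1 : x ∈ Set.range e := hsurj x
    have h2 : y ∈ Set.range e := hsurj y
    tauto
  have hmap : ∀ Y : Finset Site, (sub X Y).map e = sub (tr z X) (tr z Y) := by
    intro Y
    ext y
    rw [Finset.mem_map, mem_sub]
    constructor
    · rintro ⟨x, hx, rfl⟩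
      rw [he, hmem]
      exact mem_sub.1 hx
    · intro hy
      obtain ⟨x, rfl⟩ := hsurj y
      rw [he, hmem] at hy
      exact ⟨x, mem_sub.2 hy, rfl⟩
  have h := QE_block (A := AF (tr z X)) (AF_symm _) hγ hζ ρ e hD (T := csub (tr z X) (tr z O))
    (T' := csub X O) (p := p) (by
      intro k
      rw [mem_csub, mem_csub, he, hmem]) (sub X S) (sub X B)
  rw [hmap, hmap] at h
  have hA : (AF (tr z X)).submatrix e e = AF X := by
    ext x y
    rw [Matrix.submatrix_apply]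
    unfold AF adj
    rw [he, he]
    simp
  rw [hA] at h
  exact h

/-! ### balls, shells, annuli in the sup norm -/

/-- sup norm -/
def nn (x : Site) : ℕ := max x.1.natAbs x.2.natAbs

/-- distance in the sup norm -/
def ds (x y : Site) : ℕ := max (x.1 - y.1).natAbs (x.2 - y.2).natAbs

/-- ball -/
noncomputable def Bl (z : Site) (r : ℕ) : Finset Site :=
  (Finset.Icc (z.1 - r) (z.1 + r)) ×ˢ (Finset.Icc (z.2 - r) (z.2 + r))

theorem mem_Bl {z x : Site} {r : ℕ} : x ∈ Bl z r ↔ ds x z ≤ r := by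
  unfold Bl ds
  rw [Finset.mem_product, Finset.mem_Icc, Finset.mem_Icc, max_le_iff]
  omega

/-- shell -/
noncomputable def Sh (z : Site) (r : ℕ) : Finset Site := (Bl z r).filter fun x => ds x z = r

theorem mem_Sh {z x : Site} {r : ℕ} : x ∈ Sh z r ↔ ds x z = r := by
  unfold Sh
  rw [Finset.mem_filter, mem_Bl]
  constructor
  · exact fun h => h.2
  · exact fun h => ⟨h.le, h⟩

/-- annulus `l ≤ |x| ≤ 2l` -/
noncomputable def An (l : ℕ) : Finset Site := (Bl 0 (2 * l)).filter fun x => l ≤ ds x 0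

theorem mem_An {x : Site} {l : ℕ} : x ∈ An l ↔ l ≤ ds x 0 ∧ ds x 0 ≤ 2 * l := by
  unfold An
  rw [Finset.mem_filter, mem_Bl]
  tauto

theorem ds_adj {x y z : Site} (h : adj x y ≠ 0) : ds y z ≤ ds x z + 1 ∧ ds x z ≤ ds y z + 1 := by
  have h1 := adj_ne_zero h
  unfold ds
  constructor
  · rw [max_le_iff]
    constructor
    · have := le_max_left (x.1 - z.1).natAbs (x.2 - z.2).natAbs
      omega
    · have := le_max_right (x.1 - z.1).natAbs (x.2 - z.2).natAbs
      omega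
  · rw [max_le_iff]
    constructor
    · have := le_max_left (y.1 - z.1).natAbs (y.2 - z.2).natAbs
      omega
    · have := le_max_right (y.1 - z.1).natAbs (y.2 - z.2).natAbs
      omega

theorem ds_triangle (x y z : Site) : ds x z ≤ ds x y + ds y z := by
  unfold ds
  rw [max_le_iff]
  have h1 := le_max_left (x.1 - y.1).natAbs (x.2 - y.2).natAbs
  have h2 := le_max_right (x.1 - y.1).natAbs (x.2 - y.2).natAbs
  have h3 := le_max_left (y.1 - z.1).natAbs (y.2 - z.2).natAbs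
  have h4 := le_max_right (y.1 - z.1).natAbs (y.2 - z.2).natAbs
  constructor <;> omega

theorem ds_comm (x y : Site) : ds x y = ds y x := by
  unfold ds
  congr 1 <;> omega

theorem ds_self (x : Site) : ds x x = 0 := by
  unfold ds
  simp

theorem crossing {z : Site} {r : ℕ} {X : Finset Site} :
    ∀ x ∈ Bl z r, ∀ y ∈ X, y ∉ Bl z r → adj x y ≠ 0 →
      x ∈ Sh z r ∪ Sh z (r + 1) ∧ y ∈ Sh z r ∪ Sh z (r + 1) := by
  intro x hx y _ hy hxy
  rw [mem_Bl] at hx hy
  have h := ds_adj (z := z) hxy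
  rw [Finset.mem_union, Finset.mem_union, mem_Sh, mem_Sh, mem_Sh, mem_Sh]
  omega

theorem card_Sh_le (z : Site) (r : ℕ) : (Sh z r).card ≤ 8 * r + 4 := by
  have h1 : Sh z r ⊆ ((({z.1 - r, z.1 + r} : Finset ℤ) ×ˢ Finset.Icc (z.2 - r) (z.2 + r)) ∪
      (Finset.Icc (z.1 - r) (z.1 + r) ×ˢ ({z.2 - r, z.2 + r} : Finset ℤ))) := by
    intro x hx
    rw [mem_Sh, ds] at hx
    have h2 : (x.1 - z.1).natAbs ≤ r := hx ▸ le_max_left _ _
    have h3 : (x.2 - z.2).natAbs ≤ r := hx ▸ le_max_right _ _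
    have h4 : (x.1 - z.1).natAbs = r ∨ (x.2 - z.2).natAbs = r := by
      rcases max_choice (x.1 - z.1).natAbs (x.2 - z.2).natAbs with h | h
      · left; rw [← h]; exact hx
      · right; rw [← h]; exact hx
    simp only [Finset.mem_union, Finset.mem_product, Finset.mem_insert, Finset.mem_singleton,
      Finset.mem_Icc]
    omega
  refine (Finset.card_le_card h1).trans ((Finset.card_union_le _ _).trans ?_)
  rw [Finset.card_product, Finset.card_product, Int.card_Icc, Int.card_Icc]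
  have h5 : ∀ a b : ℤ, ({a, b} : Finset ℤ).card ≤ 2 := fun a b => Finset.card_le_two
  have h6 : (z.2 + r + 1 - (z.2 - r)).toNat = 2 * r + 1 := by omega
  have h7 : (z.1 + r + 1 - (z.1 - r)).toNat = 2 * r + 1 := by omega
  rw [h6, h7]
  have h8 := h5 (z.1 - r) (z.1 + r)
  have h9 := h5 (z.2 - r) (z.2 + r)
  nlinarith

theorem tr_Bl (z : Site) (r : ℕ) : tr z (Bl 0 r) = Bl z r := by
  ext x
  rw [mem_tr, mem_Bl, mem_Bl]
  unfold ds
  simp

theorem tr_Sh (z : Site) (r : ℕ) : tr z (Sh 0 r) = Sh z r := by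
  ext x
  rw [mem_tr, mem_Sh, mem_Sh]
  unfold ds
  simp

theorem tr_singleton (z : Site) : tr z {0} = {z} := by
  ext x
  rw [mem_tr, Finset.mem_singleton, Finset.mem_singleton, Prod.ext_iff, Prod.ext_iff]
  simp only [Prod.fst_zero, Prod.snd_zero]
  omega

/-- root to boundary of the ball of radius `r` -/
noncomputable def FR (γ : ℝ) (ζ : ℂ) (ρ : Measure ℝ) (p : ℝ) (r : ℕ) : ℝ≥0∞ :=
  QR γ ζ ρ p (Bl 0 r) (Sh 0 r) {0} (Sh 0 r)

/-- across the annulus `l ≤ |x| ≤ 2l` -/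
noncomputable def GA (γ : ℝ) (ζ : ℂ) (ρ : Measure ℝ) (p : ℝ) (l : ℕ) : ℝ≥0∞ :=
  QR γ ζ ρ p (An l) (Sh 0 l ∪ Sh 0 (2 * l)) (Sh 0 l) (Sh 0 (2 * l))

theorem FR_step [IsProbabilityMeasure ρ] (hγ : 0 < γ) (hζ : 0 < ζ.im) (hp : 0 < p) (hp1 : p < 1)
    (r : ℕ) :
    FR γ ζ ρ p (2 * (r + 1)) ≤ ENNReal.ofReal (CS γ 4 p) *
      (FR γ ζ ρ p r * GA γ ζ ρ p (r + 1)) := by
  have h := QR_step (ρ := ρ) hγ hζ hp hp1 (X := Bl 0 (2 * (r + 1))) (R := Bl 0 r)
    (O := Sh 0 (2 * (r + 1))) (L := Sh 0 r ∪ Sh 0 (r + 1)) (S := {0}) (B := Sh 0 (2 * (r + 1)))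
    (fun x hx => mem_Bl.2 ((mem_Bl.1 hx).trans (by omega)))
    (Finset.disjoint_left.2 fun x hx hx' => by
      rw [Finset.mem_union, mem_Sh, mem_Sh] at hx'
      rw [mem_Sh] at hx
      omega)
    crossing
    (fun x hx => by
      rw [Finset.mem_singleton] at hx
      subst hx
      rw [mem_Bl, ds_self]
      exact Nat.zero_le _)
    (Finset.disjoint_left.2 fun x hx hx' => by
      rw [mem_Sh] at hx
      rw [mem_Bl] at hx'
      omega)
  have h1 : QR γ ζ ρ p (Bl 0 r) (Sh 0 (2 * (r + 1)) ∪ (Sh 0 r ∪ Sh 0 (r + 1))) {0}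
      (Sh 0 r ∪ Sh 0 (r + 1)) = FR γ ζ ρ p r := by
    refine QR_congr ?_ (fun x _ => Iff.rfl) ?_
    · intro x hx
      rw [mem_Bl] at hx
      rw [Finset.mem_union, Finset.mem_union, mem_Sh, mem_Sh, mem_Sh]
      omega
    · intro x hx
      rw [mem_Bl] at hx
      rw [Finset.mem_union, mem_Sh, mem_Sh]
      omega
  have h2 : Bl (0 : Site) (2 * (r + 1)) \ Bl 0 r = An (r + 1) := by
    ext x
    rw [Finset.mem_sdiff, mem_Bl, mem_Bl, mem_An]
    omega
  have h3 : QR γ ζ ρ p (An (r + 1)) (Sh 0 (2 * (r + 1)) ∪ (Sh 0 r ∪ Sh 0 (r + 1)))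
      (Sh 0 r ∪ Sh 0 (r + 1)) (Sh 0 (2 * (r + 1))) = GA γ ζ ρ p (r + 1) := by
    refine QR_congr ?_ ?_ (fun x _ => Iff.rfl)
    · intro x hx
      rw [mem_An] at hx
      rw [Finset.mem_union, Finset.mem_union, Finset.mem_union, mem_Sh, mem_Sh, mem_Sh]
      omega
    · intro x hx
      rw [mem_An] at hx
      rw [Finset.mem_union, mem_Sh, mem_Sh]
      omega
  rw [h1, h2, h3] at h
  exact h

/-- base of the concentric chain -/
theorem FR_base [IsProbabilityMeasure ρ] (hγ : 0 < γ) (hζ : 0 < ζ.im) (hp : 0 < p) (hp1 : p < 1)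
    {r : ℕ} (hr : 1 ≤ r) : FR γ ζ ρ p r ≤ ENNReal.ofReal (K0 γ p) := by
  unfold FR QR
  obtain ⟨z, hz⟩ : ∃ z : Bl 0 r, (z : Site) = 0 := by
    refine ⟨⟨0, ?_⟩, rfl⟩
    rw [mem_Bl, ds_self]
    exact Nat.zero_le _
  have hs : sub (Bl 0 r) {0} = {z} := by
    ext x
    rw [mem_sub, Finset.mem_singleton, Finset.mem_singleton, Subtype.ext_iff, hz]
  have h1 : z ∈ csub (Bl 0 r) (Sh 0 r) := by
    rw [mem_csub, mem_Sh, hz, ds_self]
    omega
  rw [hs]
  have h2 : ({z} : Finset (Bl 0 r)) ⊆ csub (Bl 0 r) (Sh 0 r) := Finset.singleton_subset_iff.2 h1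
  have h3 : Disjoint (sub (Bl 0 r) (Sh 0 r)) (csub (Bl 0 r) (Sh 0 r) \ {z}) := by
    refine Finset.disjoint_left.2 fun x hx hx' => ?_
    rw [Finset.mem_sdiff, mem_csub] at hx'
    exact hx'.1 (mem_sub.1 hx)
  have h4 : ({z} : Finset (Bl 0 r)) ⊆ {z, z} := fun x hx =>
    Finset.mem_insert.2 (Or.inl (Finset.mem_singleton.1 hx))
  exact QE_apriori (AF_symm _) hγ hζ hp hp1 ρ h2 (Finset.mem_singleton_self z) h3
    ⟨z, h4, Or.inl (Finset.Subset.refl _)⟩

/-- single-site roots: one step of the decay recursion -/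
theorem site_step [IsProbabilityMeasure ρ] (hγ : 0 < γ) (hζ : 0 < ζ.im) (hp : 0 < p)
    (hp1 : p < 1) {X : Finset Site} {x y : Site} {r : ℕ} (hX : Bl x r ⊆ X) (hy : r < ds x y)
    {a : ℝ≥0∞} (ha : ∀ z ∈ X, ds z x ≤ r + 1 → QR γ ζ ρ p X ∅ {z} {y} ≤ a) :
    QR γ ζ ρ p X ∅ {x} {y} ≤
      ENNReal.ofReal (CS γ 4 p) * ENNReal.ofReal ((1 + 4 / γ) ^ p) * FR γ ζ ρ p r *
        ((16 * r + 16 : ℕ) * a) := by
  obtain ⟨L, hLdef⟩ : ∃ L, L = Sh x r ∪ Sh x (r + 1) := ⟨_, rfl⟩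
  have hB : Disjoint ({y} : Finset Site) (Bl x r) := by
    refine Finset.disjoint_left.2 fun z hz hz' => ?_
    rw [Finset.mem_singleton] at hz
    subst hz
    rw [mem_Bl, ds_comm] at hz'
    omega
  have hc : ∀ u ∈ Bl x r, ∀ v ∈ X, v ∉ Bl x r → adj u v ≠ 0 → u ∈ L ∧ v ∈ L := by
    rw [hLdef]
    exact crossing
  have hx : ({x} : Finset Site) ⊆ Bl x r := by
    rw [Finset.singleton_subset_iff, mem_Bl, ds_self]
    exact Nat.zero_le _
  have h1 := QR_step (ρ := ρ) hγ hζ hp hp1 (X := X) (R := Bl x r) (O := ∅) (L := L) (S := {x})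
    (B := {y}) hX (Finset.disjoint_empty_left _) hc hx hB
  have h2 := QR_return (ρ := ρ) hγ hζ hp hp1 (X := X) (R := Bl x r) (O := ∅) (L := L)
    (B := {y}) (Finset.disjoint_empty_left _) hc hB
  have h3 : QR γ ζ ρ p (Bl x r) (∅ ∪ L) {x} L = FR γ ζ ρ p r := by
    unfold FR
    rw [← QR_tr hγ hζ x (Bl 0 r), tr_Bl, tr_Sh, tr_singleton]
    refine QR_congr ?_ (fun z _ => Iff.rfl) ?_
    · intro z hz
      rw [mem_Bl] at hz
      rw [Finset.empty_union, hLdef, Finset.mem_union, mem_Sh, mem_Sh]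
      omega
    · intro z hz
      rw [mem_Bl] at hz
      rw [hLdef, Finset.mem_union, mem_Sh, mem_Sh]
      omega
  have h4 : QR γ ζ ρ p X ∅ L {y} ≤ (16 * r + 16 : ℕ) * a := by
    unfold QR
    refine (QE_le_sum hp hp1 ρ _ _ _).trans ?_
    have h5 : ∀ z ∈ sub X L, QE (AF X) γ ζ ρ p (csub X ∅) {z} (sub X {y}) ≤ a := by
      intro z hz
      have h6 : sub X {(z : Site)} = {z} := by
        ext v
        rw [mem_sub, Finset.mem_singleton, Finset.mem_singleton, Subtype.ext_iff]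
      have h7 := ha z z.2 (by
        have := mem_sub.1 hz
        rw [hLdef, Finset.mem_union, mem_Sh, mem_Sh] at this
        omega)
      unfold QR at h7
      rwa [h6] at h7
    refine (Finset.sum_le_sum h5).trans ?_
    rw [Finset.sum_const, nsmul_eq_mul]
    refine mul_le_mul_of_nonneg_right ?_ zero_le
    have h8 : (sub X L).card ≤ 16 * r + 16 := by
      have h9 : (sub X L).card ≤ L.card := by
        refine Finset.card_le_card_of_injOn (fun v => (v : Site)) ?_ ?_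
        · intro v hv
          have := mem_sub.1 (Finset.mem_coe.1 hv)
          exact this
        · intro v _ u _ h
          exact Subtype.ext h
      refine h9.trans ?_
      rw [hLdef]
      refine (Finset.card_union_le _ _).trans ?_
      have := card_Sh_le x r
      have := card_Sh_le x (r + 1)
      omega
    exact_mod_cast h8
  rw [h3] at h1
  calc QR γ ζ ρ p X ∅ {x} {y}
      ≤ ENNReal.ofReal (CS γ 4 p) * (FR γ ζ ρ p r * QR γ ζ ρ p (X \ Bl x r) (∅ ∪ L) L {y}) := h1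
    _ ≤ ENNReal.ofReal (CS γ 4 p) * (FR γ ζ ρ p r *
          (ENNReal.ofReal ((1 + 4 / γ) ^ p) * ((16 * r + 16 : ℕ) * a))) := by
        gcongr
        exact h2.trans (mul_le_mul_of_nonneg_left h4 zero_le)
    _ = _ := by ring

end P365L.Comp
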