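import Vale.Agent.P365.Comp.Det

set_option linter.all false

/-!
# P365 / Comp / Mix: product measures: mixing two independent copies, independence of functions of
disjoint sets of coordinates, marginals.
-/

namespace P365L.Comp

open MeasureTheory ProbabilityTheory
open scoped ENNReal

variable {ι : Type*} [Fintype ι] [DecidableEq ι]
variable {α : Type*} [MeasurableSpace α]

/-- take the coordinates in `T` from the first family, the others from the second one -/
def mix {ι α : Type*} [DecidableEq ι] (T : Finset ι) (c c' : ι → α) : ι → α :=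
  fun x => if x ∈ T then c x else c' x

omit [Fintype ι] in
theorem measurable_mix (T : Finset ι) :
    Measurable (fun p : (ι → α) × (ι → α) => mix T p.1 p.2) := by
  refine measurable_pi_lambda _ fun x => ?_
  unfold mix
  by_cases hx : x ∈ T
  · simp only [if_pos hx]
    exact (measurable_pi_apply x).comp measurable_fst
  · simp only [if_neg hx]
    exact (measurable_pi_apply x).comp measurable_snd

theorem measurePreserving_mix (ρ : Measure α) [IsProbabilityMeasure ρ] (T : Finset ι) :
    MeasurePreserving (fun p : (ι → α) × (ι → α) => mix T p.1 p.2)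
      ((Measure.pi fun _ : ι => ρ).prod (Measure.pi fun _ : ι => ρ))
      (Measure.pi fun _ : ι => ρ) := by
  refine ⟨measurable_mix T, ?_⟩
  symm
  refine Measure.pi_eq fun s hs => ?_
  rw [Measure.map_apply (measurable_mix T) (MeasurableSet.univ_pi hs)]
  have h1 : (fun p : (ι → α) × (ι → α) => mix T p.1 p.2) ⁻¹' Set.univ.pi s =
      (Set.univ.pi fun i => if i ∈ T then s i else Set.univ) ×ˢ
        (Set.univ.pi fun i => if i ∈ T then Set.univ else s i) := by
    ext ⟨c, c'⟩
    simp only [Set.mem_preimage, Set.mem_univ_pi, Set.mem_prod, mix]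
    constructor
    · intro h
      refine ⟨fun i => ?_, fun i => ?_⟩
      · have := h i
        by_cases hi : i ∈ T
        · rw [if_pos hi] at this
          rwa [if_pos hi]
        · rw [if_neg hi]
          exact Set.mem_univ _
      · have := h i
        by_cases hi : i ∈ T
        · rw [if_pos hi]
          exact Set.mem_univ _
        · rw [if_neg hi] at this
          rwa [if_neg hi]
    · rintro ⟨h, h'⟩ i
      by_cases hi : i ∈ T
      · have := h i
        rw [if_pos hi] at this
        rwa [if_pos hi]
      · have := h' i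
        rw [if_neg hi] at this
        rwa [if_neg hi]
  rw [h1, Measure.prod_prod, Measure.pi_pi, Measure.pi_pi, ← Finset.prod_mul_distrib]
  refine Finset.prod_congr rfl fun i _ => ?_
  by_cases hi : i ∈ T
  · rw [if_pos hi, if_pos hi, measure_univ, mul_one]
  · rw [if_neg hi, if_neg hi, measure_univ, one_mul]

/-- resampling the coordinates in `T` -/
theorem lintegral_mix (ρ : Measure α) [IsProbabilityMeasure ρ] (T : Finset ι)
    {F : (ι → α) → ℝ≥0∞} (hF : Measurable F) :
    ∫⁻ c, F c ∂(Measure.pi fun _ : ι => ρ) =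
      ∫⁻ c, ∫⁻ c', F (mix T c' c) ∂(Measure.pi fun _ : ι => ρ)
        ∂(Measure.pi fun _ : ι => ρ) := by
  have h := lintegral_prod_symm (μ := Measure.pi fun _ : ι => ρ) (ν := Measure.pi fun _ : ι => ρ)
    (fun p : (ι → α) × (ι → α) => F (mix T p.1 p.2)) (hF.comp (measurable_mix T)).aemeasurable
  rw [← (measurePreserving_mix ρ T).lintegral_comp hF]
  exact h

/-- functions of disjoint sets of coordinates are independent -/
theorem lintegral_mul_dep (ρ : Measure α) [IsProbabilityMeasure ρ] (T : Finset ι)
    {F G : (ι → α) → ℝ≥0∞} (hF : Measurable F) (hG : Measurable G)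
    (hFT : ∀ c c', (∀ x ∈ T, c x = c' x) → F c = F c')
    (hGT : ∀ c c', (∀ x, x ∉ T → c x = c' x) → G c = G c') :
    ∫⁻ c, F c * G c ∂(Measure.pi fun _ : ι => ρ) =
      (∫⁻ c, F c ∂(Measure.pi fun _ : ι => ρ)) * ∫⁻ c, G c ∂(Measure.pi fun _ : ι => ρ) := by
  rw [show ∫⁻ c, F c * G c ∂(Measure.pi fun _ : ι => ρ) =
      ∫⁻ c, ∫⁻ c', F (mix T c' c) * G (mix T c' c) ∂(Measure.pi fun _ : ι => ρ)
        ∂(Measure.pi fun _ : ι => ρ) from lintegral_mix ρ T (hF.mul hG)]
  have h1 : ∀ c c' : ι → α, F (mix T c' c) * G (mix T c' c) = F c' * G c := by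
    intro c c'
    rw [hFT (mix T c' c) c' fun x hx => by rw [mix, if_pos hx],
      hGT (mix T c' c) c fun x hx => by rw [mix, if_neg hx]]
  simp_rw [h1]
  have h2 : ∀ c : ι → α, ∫⁻ c', F c' * G c ∂(Measure.pi fun _ : ι => ρ) =
      (∫⁻ c', F c' ∂(Measure.pi fun _ : ι => ρ)) * G c := fun c =>
    lintegral_mul_const _ hF
  simp_rw [h2]
  rw [lintegral_const_mul _ hG]

/-- marginals of product measures -/
theorem measurePreserving_marg {κ : Type*} [Fintype κ] [DecidableEq κ] (ρ : Measure α)
    [IsProbabilityMeasure ρ] (e : κ → ι) (he : Function.Injective e) :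
    MeasurePreserving (fun c : ι → α => fun k => c (e k)) (Measure.pi fun _ : ι => ρ)
      (Measure.pi fun _ : κ => ρ) := by
  have hm : Measurable (fun c : ι → α => fun k => c (e k)) :=
    measurable_pi_lambda _ fun k => measurable_pi_apply (e k)
  refine ⟨hm, ?_⟩
  symm
  refine Measure.pi_eq fun s hs => ?_
  rw [Measure.map_apply hm (MeasurableSet.univ_pi hs)]
  classical
  obtain ⟨t, ht⟩ : ∃ t : ι → Set α, t = fun i => if h : ∃ k, e k = i then s h.choose else Set.univ :=
    ⟨_, rfl⟩
  have ht1 : ∀ k, t (e k) = s k := by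
    intro k
    have h : ∃ k', e k' = e k := ⟨k, rfl⟩
    rw [ht]
    simp only [dif_pos h]
    rw [he h.choose_spec]
  have ht2 : ∀ i, i ∉ Finset.univ.image e → t i = Set.univ := by
    intro i hi
    have h : ¬ ∃ k, e k = i := by
      rintro ⟨k, rfl⟩
      exact hi (Finset.mem_image_of_mem e (Finset.mem_univ k))
    rw [ht]
    simp only [dif_neg h]
  have h1 : (fun c : ι → α => fun k => c (e k)) ⁻¹' Set.univ.pi s = Set.univ.pi t := by
    ext c
    simp only [Set.mem_preimage, Set.mem_univ_pi]
    constructor
    · intro h i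
      by_cases hi : i ∈ Finset.univ.image e
      · obtain ⟨k, _, rfl⟩ := Finset.mem_image.1 hi
        rw [ht1]
        exact h k
      · rw [ht2 i hi]
        exact Set.mem_univ _
    · intro h k
      rw [← ht1]
      exact h (e k)
  rw [h1, Measure.pi_pi]
  calc ∏ i, ρ (t i) = ∏ i ∈ Finset.univ.image e, ρ (t i) := by
        symm
        refine Finset.prod_subset (Finset.subset_univ _) fun i _ hi => ?_
        rw [ht2 i hi, measure_univ]
    _ = ∏ k, ρ (t (e k)) := Finset.prod_image fun x _ y _ h => he h
    _ = ∏ k, ρ (s k) := Finset.prod_congr rfl fun k _ => by rw [ht1]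

end P365L.Comp
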