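import Vale.Agent.P365.Comp.Fm
import Vale.Agent.P365.Open.Thm

set_option linter.all false

/-!
# P365 / Comp / Out: adapter from helper24's `OpenEU` to `OpenThm`, and the chain to `FMbox`.
-/

namespace P365L.Comp

open MeasureTheory ProbabilityTheory Complex P365S6
open P365L P365L.Op P365O
open scoped ENNReal

theorem ext_eq_outr (N : ℕ) [NeZero N] (l : ℕ) : ext N (2 * l) = outr N l := by
  ext x
  rw [mem_ext, mem_outr]

theorem openThm_of_EU {γ : ℝ} (hγ : 0 < γ) (ρ : Measure ℝ) [IsProbabilityMeasure ρ] (E : ℝ)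
    (h : Op.OpenEU γ (ρ.map fun t => t - E)) : OpenThm γ E ρ := by
  intro θ hθ
  obtain ⟨l0, hl0⟩ := h (γ ^ 2 * θ) (by positivity)
  refine ⟨l0, fun l hl => ?_⟩
  obtain ⟨N, hN0, hN, e1, he1, H⟩ := hl0 l hl (4 * l + 4)
  refine ⟨N, hN0, hN, e1, he1, fun e0 h0 h1 => ?_⟩
  have h2 := H e0 h0 h1
  have hpos : ∀ x : Tor N, 0 < pr γ e0 (P365L.ball N l ∪ ext N (2 * l)) x := by
    intro x
    unfold pr
    split_ifs
    · exact hγ
    · exact h0
  rw [EU_map_sub ρ E γ hpos (Adm_Trm (AT_symm N) _ _)] at h2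
  have h3 : ∀ w : Tor N → ℝ, EEp γ (pr γ e0 (P365L.ball N l ∪ ext N (2 * l)))
      (fun x => w x - E) (fun W => Trm (AT N) W (P365L.ball N l) (ext N (2 * l))) =
      γ ^ 2 * EEp γ (prof N l γ e0) (fun x => w x - E)
        (fun W => hs (Gr (AT N) W) (P365L.ball N l) (outr N l)) := by
    intro w
    rw [EEp_Trm_eq]
    unfold EEp
    rw [← integral_const_mul]
    refine integral_congr_ae (Filter.Eventually.of_forall fun c => ?_)
    simp only [ext_eq_outr]
    unfold hs KK
    rw [Finset.mul_sum]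
    refine Finset.sum_congr rfl fun a _ => ?_
    rw [Finset.mul_sum]
    rfl
  simp only [h3] at h2
  rw [integral_const_mul] at h2
  exact le_of_mul_le_mul_left h2 (by positivity)

/-- **from the slope bound (LOC-5) to exponential decay of the fractional moments** -/
theorem FMbox_of_LOC5 {γ B : ℝ} (hγ : 0 < γ) (ρ : Measure ℝ) [IsProbabilityMeasure ρ]
    (hB : ρ (Set.Icc (-B) B)ᶜ = 0) (E : ℝ) (h5 : Op.LOC5w γ (ρ.map fun t => t - E)) :
    P365L.Inf.FMbox γ ρ E := by
  have hm : Measurable fun t : ℝ => t - E := by fun_prop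
  haveI : IsProbabilityMeasure (ρ.map fun t => t - E) :=
    Measure.isProbabilityMeasure_map hm.aemeasurable
  exact FMbox_of_open hγ E (openThm_of_EU hγ ρ E
    (Op.openEU hγ (ρ.map fun t => t - E) (map_sub_bounded hB E) h5))

end P365L.Comp
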