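import Vale.Agent.P365.Comp.Chain
import Vale.Agent.P365.Flow.Semi

set_option linter.all false

/-!
# P365 / Comp / Scale: comparison of two noise scales on finitely many sites; from second moments to
`p`-th moments.
-/

namespace P365L.Comp

open MeasureTheory ProbabilityTheory Complex
open P365L
open scoped ENNReal

/-- one site: raising the noise scale from `b` to `a` costs at most a factor `a / b` -/
theorem lintegral_scale_le {a b : ℝ} (hb : 0 < b) (hab : b ≤ a) {f : ℝ → ℝ≥0∞}
    (hf : Measurable f) :
    ∫⁻ t, f (a * t) ∂nu ≤ ENNReal.ofReal (a / b) * ∫⁻ t, f (b * t) ∂nu := by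
  have ha : 0 < a := hb.trans_le hab
  rw [P365F.lintegral_scale ha hf, P365F.lintegral_scale hb hf,
    ← lintegral_const_mul _ (by fun_prop)]
  refine lintegral_mono fun x => ?_
  rw [← mul_assoc, ← ENNReal.ofReal_mul (by positivity)]
  refine mul_le_mul_of_nonneg_right (ENNReal.ofReal_le_ofReal ?_) zero_le
  have h1 : (x ^ 2 + a ^ 2)⁻¹ ≤ (x ^ 2 + b ^ 2)⁻¹ := by
    apply inv_anti₀ (by positivity)
    nlinarith
  have h2 : a / b * (Real.pi⁻¹ * b * (x ^ 2 + b ^ 2)⁻¹) = Real.pi⁻¹ * a * (x ^ 2 + b ^ 2)⁻¹ := by
    field_simp
  rw [h2]
  exact mul_le_mul_of_nonneg_left h1 (by positivity)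

variable {ι : Type*} [Fintype ι] [DecidableEq ι]

theorem lintegral_resample1 (z : ι) {F : (ι → ℝ) → ℝ≥0∞} (hF : Measurable F) :
    ∫⁻ c, F c ∂(mu ι) = ∫⁻ c, ∫⁻ t, F (Function.update c z t) ∂nu ∂(mu ι) := by
  have hmp := measurePreserving_resample (ι := ι) z
  rw [← hmp.lintegral_comp hF]
  exact lintegral_prod _ (hF.comp hmp.measurable).aemeasurable

/-- finitely many sites -/
theorem lintegral_scales_le {a b : ℝ} (hb : 0 < b) (hab : b ≤ a) {F : (ι → ℝ) → ℝ≥0∞}
    (hF : Measurable F) (S : Finset ι) :
    ∫⁻ c, F (fun x => a * c x) ∂(mu ι) ≤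
      ENNReal.ofReal (a / b) ^ S.card *
        ∫⁻ c, F (fun x => (if x ∈ S then b else a) * c x) ∂(mu ι) := by
  induction S using Finset.induction_on with
  | empty => simp
  | insert z S hz ih =>
    refine ih.trans ?_
    rw [Finset.card_insert_of_notMem hz, pow_succ, mul_assoc]
    refine mul_le_mul_of_nonneg_left ?_ zero_le
    have hm1 : Measurable fun c : ι → ℝ => fun x => (if x ∈ S then b else a) * c x :=
      measurable_pi_lambda _ fun x => (measurable_pi_apply x).const_mul _
    have hm2 : Measurable fun c : ι → ℝ => fun x => (if x ∈ insert z S then b else a) * c x :=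
      measurable_pi_lambda _ fun x => (measurable_pi_apply x).const_mul _
    rw [lintegral_resample1 z (F := fun c => F (fun x => (if x ∈ S then b else a) * c x))
        (hF.comp hm1),
      lintegral_resample1 z (F := fun c => F (fun x => (if x ∈ insert z S then b else a) * c x))
        (hF.comp hm2)]
    have hmeas : Measurable fun c : ι → ℝ => ∫⁻ t, F (fun x => (if x ∈ insert z S then b else a) *
        Function.update c z t x) ∂nu := by
      have h1 : Measurable fun q : (ι → ℝ) × ℝ => F (fun x => (if x ∈ insert z S then b else a) *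
          Function.update q.1 z q.2 x) :=
        (hF.comp hm2).comp (measurePreserving_resample (ι := ι) z).measurable
      exact h1.lintegral_prod_right'
    rw [← lintegral_const_mul _ hmeas]
    refine lintegral_mono fun c => ?_
    have hΦ : Measurable fun s : ℝ =>
        F (fun x => if x = z then s else (if x ∈ S then b else a) * c x) := by
      refine hF.comp (measurable_pi_lambda _ fun x => ?_)
      by_cases hx : x = z
      · simp only [if_pos hx]
        exact measurable_id
      · simp only [if_neg hx]
        exact measurable_const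
    have h1 : ∀ t : ℝ, (fun x => (if x ∈ S then b else a) * Function.update c z t x) =
        fun x => if x = z then a * t else (if x ∈ S then b else a) * c x := by
      intro t
      funext x
      by_cases hx : x = z
      · subst hx
        rw [if_neg hz, if_pos rfl, Function.update_self]
      · rw [if_neg hx, Function.update_of_ne hx]
    have h2 : ∀ t : ℝ, (fun x => (if x ∈ insert z S then b else a) * Function.update c z t x) =
        fun x => if x = z then b * t else (if x ∈ S then b else a) * c x := by
      intro t
      funext x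
      by_cases hx : x = z
      · subst hx
        rw [if_pos (Finset.mem_insert_self _ _), if_pos rfl, Function.update_self]
      · rw [if_neg hx, Function.update_of_ne hx]
        simp only [Finset.mem_insert, hx, false_or]
    simp only [h1, h2]
    exact lintegral_scale_le hb hab hΦ

/-- a concave power below a tangent-like line -/
theorem rpow_le_lin {x δ q : ℝ} (hx : 0 ≤ x) (hδ : 0 < δ) (hq : 0 < q) (hq1 : q < 1) :
    x ^ q ≤ δ ^ q + δ ^ (q - 1) * x := by
  rcases le_total x δ with h | h
  · have h1 : x ^ q ≤ δ ^ q := Real.rpow_le_rpow hx h hq.le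
    have h2 : 0 ≤ δ ^ (q - 1) * x := by positivity
    linarith
  · have hx0 : 0 < x := hδ.trans_le h
    have h1 : x ^ q = x ^ (q - 1) * x := by
      rw [Real.rpow_sub_one hx0.ne']
      field_simp
    have h2 : x ^ (q - 1) ≤ δ ^ (q - 1) := Real.rpow_le_rpow_of_nonpos hδ h (by linarith)
    have h3 : 0 ≤ δ ^ q := by positivity
    rw [h1]
    have := mul_le_mul_of_nonneg_right h2 hx
    linarith

end P365L.Comp
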