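import Vale.Agent.P365.Comp.Mix
import Vale.Agent.P365.S6.Main

set_option linter.all false

/-!
# P365 / Comp / Step: the two-layer composition step in expectation.
-/

namespace P365L.Comp

open MeasureTheory ProbabilityTheory Complex Matrix P365S6
open P365L
open scoped ENNReal

variable {ι : Type*} [Fintype ι] [DecidableEq ι]
variable {A A' : Matrix ι ι ℝ} {γ τ p : ℝ} {ζ : ℂ}

/-- the `p`-th moment `E ‖G_{SB}‖_HS^p`; revealed sites `T`, all other sites absorbing;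
background law `ρ` -/
noncomputable def QE {ι : Type*} [Fintype ι] [DecidableEq ι] (A : Matrix ι ι ℝ) (γ : ℝ) (ζ : ℂ)
    (ρ : Measure ℝ) (p : ℝ) (T S B : Finset ι) : ℝ≥0∞ :=
  ∫⁻ w, ∫⁻ c, ENNReal.ofReal ((hs (GT A γ w ζ T c) S B) ^ (p / 2)) ∂(mu ι)
    ∂(Measure.pi fun _ : ι => ρ)

/-! ### measurability -/

theorem measurable_GT2 (T : Finset ι) (x y : ι) :
    Measurable fun q : (ι → ℝ) × (ι → ℝ) => GT A γ q.1 ζ T q.2 x y := by
  refine measurable_Gr (fun q : (ι → ℝ) × (ι → ℝ) => Wt γ q.1 ζ T q.2) (fun z => ?_) x y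
  unfold Wt
  have h1 : Measurable fun q : (ι → ℝ) × (ι → ℝ) => ((q.1 z : ℝ) : ℂ) :=
    Complex.measurable_ofReal.comp ((measurable_pi_apply z).comp measurable_fst)
  have h2 : Measurable fun q : (ι → ℝ) × (ι → ℝ) => ((q.2 z : ℝ) : ℂ) :=
    Complex.measurable_ofReal.comp ((measurable_pi_apply z).comp measurable_snd)
  by_cases hz : z ∈ T
  · simp only [if_pos hz]
    exact (h1.add (h2.const_mul _)).sub_const _
  · simp only [if_neg hz]
    exact (h1.add_const _).sub_const _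

theorem measurable_hs2 (T S B : Finset ι) :
    Measurable fun q : (ι → ℝ) × (ι → ℝ) => hs (GT A γ q.1 ζ T q.2) S B := by
  unfold hs
  exact Finset.measurable_sum _ fun a _ => Finset.measurable_sum _ fun b _ =>
    ((measurable_GT2 T a b).norm).pow_const 2

theorem measurable_F2 (T S B : Finset ι) :
    Measurable fun q : (ι → ℝ) × (ι → ℝ) =>
      ENNReal.ofReal ((hs (GT A γ q.1 ζ T q.2) S B) ^ (p / 2)) :=
  ((measurable_hs2 T S B).pow_const _).ennreal_ofReal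

theorem measurable_hs1 (w : ι → ℝ) (T S B : Finset ι) :
    Measurable fun c : ι → ℝ => hs (GT A γ w ζ T c) S B := by
  unfold hs
  exact Finset.measurable_sum _ fun a _ => Finset.measurable_sum _ fun b _ =>
    ((measurable_GT (U := w) T a b).norm).pow_const 2

theorem measurable_F (w : ι → ℝ) (T S B : Finset ι) :
    Measurable fun c : ι → ℝ =>
      ENNReal.ofReal ((hs (GT A γ w ζ T c) S B) ^ (p / 2)) :=
  ((measurable_hs1 w T S B).pow_const _).ennreal_ofReal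

theorem measurable_Fint (T S B : Finset ι) :
    Measurable fun w : ι → ℝ =>
      ∫⁻ c, ENNReal.ofReal ((hs (GT A γ w ζ T c) S B) ^ (p / 2)) ∂(mu ι) :=
  (measurable_F2 (A := A) (γ := γ) (ζ := ζ) (p := p) T S B).lintegral_prod_right'

/-- the trivial bound of `hs` -/
theorem hs_GT_le (hA : A.IsSymm) (hγ : 0 < γ) (hζ : 0 < ζ.im) (w c : ι → ℝ) (T S B : Finset ι) :
    hs (GT A γ w ζ T c) S B ≤ S.card * B.card * (1 / ζ.im) ^ 2 := by
  unfold hs
  calc ∑ a ∈ S, ∑ b ∈ B, ‖GT A γ w ζ T c a b‖ ^ 2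
      ≤ ∑ a ∈ S, ∑ b ∈ B, (1 / ζ.im) ^ 2 :=
        Finset.sum_le_sum fun a _ => Finset.sum_le_sum fun b _ =>
          pow_le_pow_left₀ (norm_nonneg _) (norm_GT_le hA hγ hζ T c a b) 2
    _ = S.card * B.card * (1 / ζ.im) ^ 2 := by
        rw [Finset.sum_const, Finset.sum_const, nsmul_eq_mul, nsmul_eq_mul, mul_assoc]

/-! ### the potential with the layer sites singled out -/

/-- base potential: `0` noise on `L` -/
noncomputable def Wb (γ : ℝ) (w : ι → ℝ) (ζ : ℂ) (T L : Finset ι) (c : ι → ℝ) (x : ι) : ℂ :=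
  (w x : ℂ) + (if x ∈ L then 0 else if x ∈ T then (γ : ℂ) * (c x : ℂ) else -(γ * I)) - ζ

omit [Fintype ι] in
theorem Wb_im (hγ : 0 < γ) (w : ι → ℝ) (T L : Finset ι) (c : ι → ℝ) (x : ι) :
    (Wb γ w ζ T L c x).im ≤ -ζ.im := by
  unfold Wb
  split_ifs <;> simp <;> linarith

omit [Fintype ι] in
theorem Wb_open {T L : Finset ι} (hL : L ⊆ T) (w c : ι → ℝ) :
    (fun x => Wb γ w ζ T L c x + if x ∈ L then -(γ * I) else 0) = Wt γ w ζ (T \ L) c := by
  funext x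
  unfold Wb Wt
  by_cases hx : x ∈ L
  · have h1 : x ∉ T \ L := fun h => (Finset.mem_sdiff.1 h).2 hx
    simp only [if_pos hx, if_neg h1]
    ring
  · by_cases hT : x ∈ T
    · have h1 : x ∈ T \ L := Finset.mem_sdiff.2 ⟨hT, hx⟩
      simp only [if_neg hx, if_pos hT, if_pos h1]
      ring
    · have h1 : x ∉ T \ L := fun h => hT (Finset.mem_sdiff.1 h).1
      simp only [if_neg hx, if_neg hT, if_neg h1]
      ring

omit [Fintype ι] in
theorem Wb_closed {T L : Finset ι} (hL : L ⊆ T) (w c c' : ι → ℝ) :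
    (fun x => Wb γ w ζ T L c x + if x ∈ L then ((γ : ℂ) * (c' x : ℂ)) else 0) =
      Wt γ w ζ T (mix L c' c) := by
  funext x
  unfold Wb Wt mix
  by_cases hx : x ∈ L
  · simp only [if_pos hx, if_pos (hL hx)]
    push_cast
    ring
  · by_cases hT : x ∈ T
    · simp only [if_neg hx, if_pos hT]
      ring
    · simp only [if_neg hx, if_neg hT]
      ring

/-! ### one layer -/

theorem ofReal_integral_hs (hA : A.IsSymm) (hγ : 0 < γ) (hζ : 0 < ζ.im) (hp : 0 < p)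
    (T L S B : Finset ι) (w c : ι → ℝ) :
    ENNReal.ofReal (∫ c', (hs (GT A γ w ζ T (mix L c' c)) S B) ^ (p / 2) ∂(mu ι)) =
      ∫⁻ c', ENNReal.ofReal ((hs (GT A γ w ζ T (mix L c' c)) S B) ^ (p / 2)) ∂(mu ι) := by
  have hm : Measurable fun c' : ι → ℝ => (hs (GT A γ w ζ T (mix L c' c)) S B) ^ (p / 2) := by
    have h1 : Measurable fun c' : ι → ℝ => mix L c' c := by
      refine measurable_pi_lambda _ fun x => ?_
      unfold mix
      by_cases hx : x ∈ L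
      · simp only [if_pos hx]
        exact measurable_pi_apply x
      · simp only [if_neg hx]
        exact measurable_const
    have h2 : Measurable fun c' : ι → ℝ => hs (GT A γ w ζ T c') S B := measurable_hs1 w T S B
    exact (h2.comp h1).pow_const _
  refine ofReal_integral_eq_lintegral_ofReal ?_ ?_
  · refine Integrable.of_bound hm.aestronglyMeasurable
      ((S.card * B.card * (1 / ζ.im) ^ 2 : ℝ) ^ (p / 2)) (Filter.Eventually.of_forall fun c' => ?_)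
    rw [Real.norm_of_nonneg (Real.rpow_nonneg (hs_nonneg _ _ _) _)]
    exact Real.rpow_le_rpow (hs_nonneg _ _ _) (hs_GT_le hA hγ hζ _ _ _ _ _) (by positivity)
  · exact Filter.Eventually.of_forall fun c' => Real.rpow_nonneg (hs_nonneg _ _ _) _

theorem QE_mix (ρ : Measure ℝ) [IsProbabilityMeasure ρ] (T L S B : Finset ι) :
    QE A γ ζ ρ p T S B = ∫⁻ w, ∫⁻ c, ∫⁻ c',
      ENNReal.ofReal ((hs (GT A γ w ζ T (mix L c' c)) S B) ^ (p / 2)) ∂(mu ι) ∂(mu ι)
        ∂(Measure.pi fun _ : ι => ρ) := by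
  unfold QE
  refine lintegral_congr fun w => ?_
  exact lintegral_mix nu L (measurable_F w T S B)

/-- closing a layer, upper bound -/
theorem one_layer_upper (hA : A.IsSymm) (hγ : 0 < γ) (hζ : 0 < ζ.im) (hp : 0 < p) (hp1 : p < 1)
    {T L : Finset ι} (hL : L ⊆ T) (S B : Finset ι) (w c : ι → ℝ) :
    ∫⁻ c', ENNReal.ofReal ((hs (GT A γ w ζ T (mix L c' c)) S B) ^ (p / 2)) ∂(mu ι) ≤
      ENNReal.ofReal ((hs (GT A γ w ζ (T \ L) c) S B) ^ (p / 2) + CK p * (2 * γ) ^ p *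
        (hs (GT A γ w ζ (T \ L) c) S L) ^ (p / 2) *
        (hs (GT A γ w ζ (T \ L) c) L B) ^ (p / 2)) := by
  rw [← ofReal_integral_hs hA hγ hζ hp]
  refine ENNReal.ofReal_le_ofReal ?_
  have h := layer_upper hA hγ hζ hp hp1 (Wb γ w ζ T L c) (Wb_im hγ w T L c) L S B
  rw [Wb_open hL] at h
  simp_rw [Wb_closed hL] at h
  exact h

theorem one_layer_lower (hA : A.IsSymm) (hγ : 0 < γ) (hζ : 0 < ζ.im) (hp : 0 < p) (hp1 : p < 1)
    {T L : Finset ι} (hL : L ⊆ T) (S B : Finset ι) (w c : ι → ℝ) :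
    ENNReal.ofReal ((hs (GT A γ w ζ (T \ L) c) S B) ^ (p / 2)) ≤
      ∫⁻ c', ENNReal.ofReal ((hs (GT A γ w ζ T (mix L c' c)) S B) ^ (p / 2)) ∂(mu ι) := by
  rw [← ofReal_integral_hs hA hγ hζ hp]
  refine ENNReal.ofReal_le_ofReal ?_
  have h := layer_lower hA hγ hζ hp (Wb γ w ζ T L c) (Wb_im hγ w T L c) L S B
  rw [Wb_open hL] at h
  simp_rw [Wb_closed hL] at h
  exact h

/-- opening sites decreases the moment -/
theorem QE_open_le (hA : A.IsSymm) (hγ : 0 < γ) (hζ : 0 < ζ.im) (hp : 0 < p) (hp1 : p < 1)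
    (ρ : Measure ℝ) [IsProbabilityMeasure ρ] {T L : Finset ι} (hL : L ⊆ T) (S B : Finset ι) :
    QE A γ ζ ρ p (T \ L) S B ≤ QE A γ ζ ρ p T S B := by
  rw [QE_mix ρ T L S B]
  unfold QE
  exact lintegral_mono fun w => lintegral_mono fun c =>
    one_layer_lower hA hγ hζ hp hp1 hL S B w c

/-! ### two layers -/

/-- the constant of the two-layer step -/
noncomputable def CS (γ τ p : ℝ) : ℝ :=
  τ ^ p * (1 + τ / γ) ^ p + CK p * (2 * γ) ^ p * ((1 + τ / γ) ^ p * (1 + τ / γ) ^ p)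

theorem CS_nonneg (hγ : 0 < γ) (hτ : 0 ≤ τ) (hp : 0 < p) (hp1 : p < 1) : 0 ≤ CS γ τ p := by
  have := CK_nonneg hp hp1
  unfold CS
  positivity

omit [DecidableEq ι] [Fintype ι] in
theorem Wt_abs_le [DecidableEq ι] (hγ : 0 < γ) (hζ : 0 < ζ.im) (w c : ι → ℝ) (T : Finset ι) {x : ι}
    (hx : x ∉ T) : (Wt γ w ζ T c x).im ≤ -γ := by
  rw [Wt_im_abs T c hx]
  linarith

theorem sq_rpow_half {x : ℝ} (hx : 0 ≤ x) : (x ^ 2) ^ (p / 2) = x ^ p := by
  rw [← Real.rpow_natCast, ← Real.rpow_mul hx]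
  congr 1
  push_cast
  ring

/-- deterministic part of the two-layer step -/
theorem step_det (hA : A.IsSymm) (hA' : A'.IsSymm) (hγ : 0 < γ) (hτ : 0 ≤ τ) (hζ : 0 < ζ.im)
    (hp : 0 < p) (hp1 : p < 1) {T L : Finset ι} (hL : L ⊆ T)
    (hT : ∀ W : ι → ℂ, Local A A' W W L τ)
    (S B : Finset ι) (w c : ι → ℝ)
    (hSB : ∀ a ∈ S, ∀ b ∈ B, GT A' γ w ζ (T \ L) c a b = 0) :
    (hs (GT A γ w ζ (T \ L) c) S B) ^ (p / 2) + CK p * (2 * γ) ^ p *
        (hs (GT A γ w ζ (T \ L) c) S L) ^ (p / 2) *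
        (hs (GT A γ w ζ (T \ L) c) L B) ^ (p / 2) ≤
      CS γ τ p * ((hs (GT A' γ w ζ (T \ L) c) S L) ^ (p / 2) *
        (hs (GT A' γ w ζ (T \ L) c) L B) ^ (p / 2)) := by
  have hW := fun x => Wt_im_neg (U := w) hγ hζ (T \ L) c x
  have hLabs : ∀ x ∈ L, (Wt γ w ζ (T \ L) c x).im ≤ -γ := fun x hx =>
    Wt_abs_le hγ hζ w c (T \ L) fun h => (Finset.mem_sdiff.1 h).2 hx
  have hT' : ∀ W : ι → ℂ, Local A' A W W L τ := by
    intro W
    constructor
    · intro x y h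
      have := (hT W).supp x y h
      rw [sub_eq_zero] at this ⊢
      exact this.symm
    · intro u
      refine le_trans (le_of_eq (Finset.sum_congr rfl fun x _ => ?_)) ((hT W).bound u)
      rw [← norm_neg, ← Finset.sum_neg_distrib]
      congr 2
      exact Finset.sum_congr rfl fun y _ => by ring
  have hp2 : 0 ≤ p / 2 := by positivity
  have h1 := cross_hs hA hA' hW hW (hT _) S B hSB
  have h2 := insens_hs hA' hA hW hW hγ hτ hLabs (hT' _) B
  have h3 := insens_hs hA' hA hW hW hγ hτ hLabs (hT' _) S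
  change hs (GT A γ w ζ (T \ L) c) S B ≤ τ ^ 2 * hs (GT A' γ w ζ (T \ L) c) S L *
    hs (GT A γ w ζ (T \ L) c) L B at h1
  change hs (GT A γ w ζ (T \ L) c) L B ≤ (1 + τ / γ) ^ 2 * hs (GT A' γ w ζ (T \ L) c) L B at h2
  change hs (GT A γ w ζ (T \ L) c) L S ≤ (1 + τ / γ) ^ 2 * hs (GT A' γ w ζ (T \ L) c) L S at h3
  rw [hs_comm (fun x y => GT_symm hA (T \ L) c x y) L S,
    hs_comm (fun x y => GT_symm hA' (T \ L) c x y) L S] at h3
  have n1 := hs_nonneg (GT A' γ w ζ (T \ L) c) S L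
  have n2 := hs_nonneg (GT A' γ w ζ (T \ L) c) L B
  have n3 := hs_nonneg (GT A γ w ζ (T \ L) c) L B
  have n4 := hs_nonneg (GT A γ w ζ (T \ L) c) S L
  have n5 := hs_nonneg (GT A γ w ζ (T \ L) c) S B
  generalize hs (GT A' γ w ζ (T \ L) c) S L = X at *
  generalize hs (GT A' γ w ζ (T \ L) c) L B = Y at *
  generalize hs (GT A γ w ζ (T \ L) c) L B = Y1 at *
  generalize hs (GT A γ w ζ (T \ L) c) S L = X1 at *
  generalize hs (GT A γ w ζ (T \ L) c) S B = Z1 at *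
  have hδ : (0 : ℝ) ≤ 1 + τ / γ := by positivity
  have e1 : Y1 ^ (p / 2) ≤ (1 + τ / γ) ^ p * Y ^ (p / 2) := by
    rw [← sq_rpow_half hδ, ← Real.mul_rpow (sq_nonneg _) n2]
    exact Real.rpow_le_rpow n3 h2 hp2
  have e2 : X1 ^ (p / 2) ≤ (1 + τ / γ) ^ p * X ^ (p / 2) := by
    rw [← sq_rpow_half hδ, ← Real.mul_rpow (sq_nonneg _) n1]
    exact Real.rpow_le_rpow n4 h3 hp2
  have e3 : Z1 ^ (p / 2) ≤ τ ^ p * X ^ (p / 2) * Y1 ^ (p / 2) := by
    rw [← sq_rpow_half hτ, ← Real.mul_rpow (sq_nonneg _) n1, ← Real.mul_rpow (by positivity) n3]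
    exact Real.rpow_le_rpow n5 h1 hp2
  have hX : 0 ≤ X ^ (p / 2) := Real.rpow_nonneg n1 _
  have hY : 0 ≤ Y ^ (p / 2) := Real.rpow_nonneg n2 _
  have hY1 : 0 ≤ Y1 ^ (p / 2) := Real.rpow_nonneg n3 _
  have hX1 : 0 ≤ X1 ^ (p / 2) := Real.rpow_nonneg n4 _
  have hτp : 0 ≤ τ ^ p := Real.rpow_nonneg hτ _
  have hCK := CK_nonneg hp hp1
  have hg : 0 ≤ CK p * (2 * γ) ^ p := by positivity
  calc Z1 ^ (p / 2) + CK p * (2 * γ) ^ p * X1 ^ (p / 2) * Y1 ^ (p / 2)
      ≤ τ ^ p * X ^ (p / 2) * Y1 ^ (p / 2) + CK p * (2 * γ) ^ p *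
          ((1 + τ / γ) ^ p * X ^ (p / 2)) * ((1 + τ / γ) ^ p * Y ^ (p / 2)) := by
        refine add_le_add e3 ?_
        exact mul_le_mul (mul_le_mul_of_nonneg_left e2 hg) e1 hY1 (by positivity)
    _ ≤ τ ^ p * X ^ (p / 2) * ((1 + τ / γ) ^ p * Y ^ (p / 2)) + CK p * (2 * γ) ^ p *
          ((1 + τ / γ) ^ p * X ^ (p / 2)) * ((1 + τ / γ) ^ p * Y ^ (p / 2)) := by
        refine add_le_add ?_ le_rfl
        exact mul_le_mul_of_nonneg_left e1 (by positivity)
    _ = CS γ τ p * (X ^ (p / 2) * Y ^ (p / 2)) := by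
        unfold CS
        ring

/-- the Green matrix of a decoupled operator depends only on the potential of the block -/
theorem Gr_dep {W W' : ι → ℂ} (hA : A.IsSymm) (hW : ∀ x, (W x).im < 0) (hW' : ∀ x, (W' x).im < 0)
    {R : ι → Prop} [DecidablePred R] (hD : Dec A R) (h : ∀ x, R x → W x = W' x) {a : ι} (ha : R a)
    (b : ι) : Gr A W a b = Gr A W' a b := by
  by_cases hb : R b
  · have hD' : Dec A (fun x => x ∈ Set.range (Subtype.val : {x // R x} → ι)) := by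
      intro x y hxy
      refine hD x y ?_
      simpa only [Subtype.range_coe_subtype, Set.mem_setOf_eq] using hxy
    have h1 := Gr_block hA hW (Subtype.val : {x // R x} → ι) Subtype.val_injective hD' ⟨a, ha⟩
      ⟨b, hb⟩
    have h2 := Gr_block hA hW' (Subtype.val : {x // R x} → ι) Subtype.val_injective hD' ⟨a, ha⟩
      ⟨b, hb⟩
    have h3 : (fun k : {x // R x} => W k.1) = fun k => W' k.1 := by
      funext k
      exact h k.1 k.2
    rw [h3] at h1
    exact h1.trans h2.symm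
  · rw [Gr_dec hA hW hD (Or.inl ⟨ha, hb⟩), Gr_dec hA hW' hD (Or.inl ⟨ha, hb⟩)]

theorem hs_dep (hA : A.IsSymm) (hγ : 0 < γ) (hζ : 0 < ζ.im) {R : ι → Prop} [DecidablePred R]
    (hD : Dec A R) (T : Finset ι) {S : Finset ι} (hS : ∀ a ∈ S, R a) (B : Finset ι)
    {w w' c c' : ι → ℝ} (hw : ∀ x, R x → w x = w' x) (hc : ∀ x, R x → c x = c' x) :
    hs (GT A γ w ζ T c) S B = hs (GT A γ w' ζ T c') S B := by
  unfold hs
  refine Finset.sum_congr rfl fun a ha => Finset.sum_congr rfl fun b _ => ?_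
  have h1 : GT A γ w ζ T c a b = GT A γ w' ζ T c' a b := by
    refine Gr_dep hA (fun x => Wt_im_neg (U := w) hγ hζ T c x)
      (fun x => Wt_im_neg (U := w') hγ hζ T c' x) hD (fun x hx => ?_) (hS a ha) b
    unfold Wt
    rw [hw x hx, hc x hx]
  rw [h1]

/-- the two factors are independent -/
theorem QE_indep (hA : A.IsSymm) (hγ : 0 < γ) (hζ : 0 < ζ.im) (ρ : Measure ℝ)
    [IsProbabilityMeasure ρ] {R : Finset ι} (hD : Dec A (fun x => x ∈ R)) (T L : Finset ι)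
    {S B : Finset ι} (hS : S ⊆ R) (hB : Disjoint B R) :
    ∫⁻ w, ∫⁻ c, ENNReal.ofReal ((hs (GT A γ w ζ T c) S L) ^ (p / 2)) *
        ENNReal.ofReal ((hs (GT A γ w ζ T c) L B) ^ (p / 2)) ∂(mu ι)
        ∂(Measure.pi fun _ : ι => ρ) =
      QE A γ ζ ρ p T S L * QE A γ ζ ρ p T L B := by
  have hD' : Dec A (fun x => x ∉ R) := by
    intro x y h
    refine hD x y ?_
    rcases h with ⟨h1, h2⟩ | ⟨h1, h2⟩
    · exact Or.inr ⟨h1, not_not.1 h2⟩
    · exact Or.inl ⟨not_not.1 h1, h2⟩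
  have hBR : ∀ b ∈ B, b ∉ R := fun b hb hR => (Finset.disjoint_left.1 hB) hb hR
  have hsym : ∀ (w c : ι → ℝ), hs (GT A γ w ζ T c) L B = hs (GT A γ w ζ T c) B L := fun w c =>
    hs_comm (fun x y => GT_symm hA T c x y) L B
  have h1 : ∀ w : ι → ℝ, ∫⁻ c, ENNReal.ofReal ((hs (GT A γ w ζ T c) S L) ^ (p / 2)) *
        ENNReal.ofReal ((hs (GT A γ w ζ T c) L B) ^ (p / 2)) ∂(mu ι) =
      (∫⁻ c, ENNReal.ofReal ((hs (GT A γ w ζ T c) S L) ^ (p / 2)) ∂(mu ι)) *
        ∫⁻ c, ENNReal.ofReal ((hs (GT A γ w ζ T c) L B) ^ (p / 2)) ∂(mu ι) := by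
    intro w
    refine lintegral_mul_dep nu R (measurable_F w T S L) (measurable_F w T L B) ?_ ?_
    · intro c c' h
      rw [hs_dep hA hγ hζ hD T (fun a ha => hS ha) L (fun x _ => rfl) h]
    · intro c c' h
      rw [hsym, hsym, hs_dep hA hγ hζ hD' T hBR L (fun x _ => rfl) h]
  simp_rw [h1]
  unfold QE
  refine lintegral_mul_dep ρ R (measurable_Fint T S L) (measurable_Fint T L B) ?_ ?_
  · intro w w' h
    refine lintegral_congr fun c => ?_
    rw [hs_dep hA hγ hζ hD T (fun a ha => hS ha) L h (fun x _ => rfl)]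
  · intro w w' h
    refine lintegral_congr fun c => ?_
    rw [hsym, hsym, hs_dep hA hγ hζ hD' T hBR L h (fun x _ => rfl)]

/-- THE TWO-LAYER STEP -/
theorem QE_step (hA : A.IsSymm) (hA' : A'.IsSymm) (hγ : 0 < γ) (hτ : 0 ≤ τ) (hζ : 0 < ζ.im)
    (hp : 0 < p) (hp1 : p < 1) (ρ : Measure ℝ) [IsProbabilityMeasure ρ] {T L R : Finset ι}
    (hL : L ⊆ T) (hT : ∀ W : ι → ℂ, Local A A' W W L τ) (hD : Dec A' (fun x => x ∈ R))
    {S B : Finset ι} (hS : S ⊆ R) (hB : Disjoint B R) :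
    QE A γ ζ ρ p T S B ≤
      ENNReal.ofReal (CS γ τ p) * (QE A' γ ζ ρ p (T \ L) S L * QE A' γ ζ ρ p (T \ L) L B) := by
  rw [QE_mix ρ T L S B, ← QE_indep hA' hγ hζ ρ hD (T \ L) L hS hB]
  have hm : Measurable fun q : (ι → ℝ) × (ι → ℝ) =>
      ENNReal.ofReal ((hs (GT A' γ q.1 ζ (T \ L) q.2) S L) ^ (p / 2)) *
        ENNReal.ofReal ((hs (GT A' γ q.1 ζ (T \ L) q.2) L B) ^ (p / 2)) :=
    (measurable_F2 _ _ _).mul (measurable_F2 _ _ _)
  rw [← lintegral_const_mul _ hm.lintegral_prod_right']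
  refine lintegral_mono fun w => ?_
  have hm1 : Measurable fun c : ι → ℝ =>
      ENNReal.ofReal ((hs (GT A' γ w ζ (T \ L) c) S L) ^ (p / 2)) *
        ENNReal.ofReal ((hs (GT A' γ w ζ (T \ L) c) L B) ^ (p / 2)) :=
    (measurable_F w _ _ _).mul (measurable_F w _ _ _)
  simp only []
  rw [← lintegral_const_mul _ hm1]
  refine lintegral_mono fun c => ?_
  refine (one_layer_upper hA hγ hζ hp hp1 hL S B w c).trans ?_
  rw [← ENNReal.ofReal_mul (Real.rpow_nonneg (hs_nonneg _ _ _) _),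
    ← ENNReal.ofReal_mul (CS_nonneg hγ hτ hp hp1)]
  refine ENNReal.ofReal_le_ofReal ?_
  refine step_det hA hA' hγ hτ hζ hp hp1 hL hT S B w c fun a ha b hb => ?_
  exact Gr_dec hA' (fun x => Wt_im_neg (U := w) hγ hζ (T \ L) c x) hD
    (Or.inl ⟨hS ha, fun h => (Finset.disjoint_left.1 hB) hb h⟩)

/-- returning from the decoupled operator to the full one (still open) -/
theorem QE_insens (hA : A.IsSymm) (hA' : A'.IsSymm) (hγ : 0 < γ) (hτ : 0 ≤ τ) (hζ : 0 < ζ.im)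
    (hp : 0 < p) (ρ : Measure ℝ) {T L : Finset ι} (hL : Disjoint L T)
    (hT : ∀ W : ι → ℂ, Local A A' W W L τ) (B : Finset ι) :
    QE A' γ ζ ρ p T L B ≤ ENNReal.ofReal ((1 + τ / γ) ^ p) * QE A γ ζ ρ p T L B := by
  unfold QE
  rw [← lintegral_const_mul _ (measurable_Fint T L B)]
  refine lintegral_mono fun w => ?_
  rw [← lintegral_const_mul _ (measurable_F w T L B)]
  refine lintegral_mono fun c => ?_
  have hδ : (0 : ℝ) ≤ 1 + τ / γ := by positivity
  rw [← ENNReal.ofReal_mul (by positivity)]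
  refine ENNReal.ofReal_le_ofReal ?_
  rw [← sq_rpow_half hδ, ← Real.mul_rpow (sq_nonneg _) (hs_nonneg _ _ _)]
  refine Real.rpow_le_rpow (hs_nonneg _ _ _) ?_ (by positivity)
  exact insens_hs hA hA' (fun x => Wt_im_neg (U := w) hγ hζ T c x)
    (fun x => Wt_im_neg (U := w) hγ hζ T c x) hγ hτ
    (fun x hx => Wt_abs_le hγ hζ w c T (Finset.disjoint_left.1 hL hx)) (hT _) B

end P365L.Comp
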