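import Vale.Agent.P365.Comp.Dom
import Vale.Agent.P365.Comp.Fm

set_option linter.all false

/-!
# P365 / Comp / Tau: polynomial smallness of the boundary sum of a closed Dirichlet ball.
-/

namespace P365L.Comp

open MeasureTheory ProbabilityTheory Complex P365S6
open P365L
open scoped ENNReal

section general

variable {ι : Type*} [Fintype ι] [DecidableEq ι]
variable {A : Matrix ι ι ℝ} {γ p : ℝ} {ζ : ℂ}

/-- closing an absorbing layer, towards a single target in it -/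
theorem QE_close (hA : A.IsSymm) (hγ : 0 < γ) (hζ : 0 < ζ.im) (hp : 0 < p) (hp1 : p < 1)
    (ρ : Measure ℝ) [IsProbabilityMeasure ρ] {T L : Finset ι} (hL : L ⊆ T) {z : ι}
    (hz : z ∈ L) (S : Finset ι) :
    QE A γ ζ ρ p T S {z} ≤
      ENNReal.ofReal (1 + CK p * (2 * γ) ^ p * (1 / γ) ^ p) * QE A γ ζ ρ p (T \ L) S L := by
  have hCK := CK_nonneg hp hp1
  have hK : 0 ≤ 1 + CK p * (2 * γ) ^ p * (1 / γ) ^ p := by positivity
  rw [QE_mix ρ T L S {z}]
  unfold QE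
  rw [← lintegral_const_mul _ (measurable_Fint (T \ L) S L)]
  refine lintegral_mono fun w => ?_
  simp only []
  rw [← lintegral_const_mul _ (measurable_F w (T \ L) S L)]
  refine lintegral_mono fun c => ?_
  refine (one_layer_upper hA hγ hζ hp hp1 hL S {z} w c).trans ?_
  rw [← ENNReal.ofReal_mul hK]
  refine ENNReal.ofReal_le_ofReal ?_
  have hp2 : 0 ≤ p / 2 := by positivity
  have b1 : hs (GT A γ w ζ (T \ L) c) S {z} ≤ hs (GT A γ w ζ (T \ L) c) S L :=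
    hs_mono _ (Finset.Subset.refl _) (Finset.singleton_subset_iff.2 hz)
  have b2 : hs (GT A γ w ζ (T \ L) c) L {z} ≤ (1 / γ) ^ 2 := by
    rw [_root_.one_div_pow]
    exact hs_column_le hA hγ hζ w c Finset.disjoint_sdiff hz
  have c1 := Real.rpow_le_rpow (hs_nonneg _ _ _) b1 hp2
  have c2 := Real.rpow_le_rpow (hs_nonneg _ _ _) b2 hp2
  rw [sq_rpow_half (show (0 : ℝ) ≤ 1 / γ by positivity)] at c2
  have hn : 0 ≤ (hs (GT A γ w ζ (T \ L) c) S L) ^ (p / 2) := Real.rpow_nonneg (hs_nonneg _ _ _) _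
  have h3 : CK p * (2 * γ) ^ p * (hs (GT A γ w ζ (T \ L) c) S L) ^ (p / 2) *
      (hs (GT A γ w ζ (T \ L) c) L {z}) ^ (p / 2) ≤
      CK p * (2 * γ) ^ p * (hs (GT A γ w ζ (T \ L) c) S L) ^ (p / 2) * (1 / γ) ^ p :=
    mul_le_mul_of_nonneg_left c2 (by positivity)
  calc _ ≤ (hs (GT A γ w ζ (T \ L) c) S L) ^ (p / 2) +
        CK p * (2 * γ) ^ p * (hs (GT A γ w ζ (T \ L) c) S L) ^ (p / 2) * (1 / γ) ^ p :=
        add_le_add c1 h3
    _ = _ := by ring

end general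

variable {γ p : ℝ} {ζ : ℂ} {ρ : Measure ℝ}

/-- the boundary sum, for an arbitrary law of the potential at one site -/
noncomputable def tauL (m : Measure ℝ) (ζ : ℂ) (s : ℝ) (r : ℕ) : ℝ≥0∞ :=
  ∑ a ∈ sub (Bl 0 r) {0}, ∑ b ∈ sub (Bl 0 r) (Sh 0 r),
    ∫⁻ v, ENNReal.ofReal (‖Gr (AF (Bl 0 r)) (fun x => (v x : ℂ) - ζ) a b‖ ^ s)
      ∂(Measure.pi fun _ : (Bl 0 r : Finset Site) => m)

theorem measurable_site {ι : Type*} [Fintype ι] [DecidableEq ι] (A : Matrix ι ι ℝ) (ζ : ℂ) (s : ℝ)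
    (a b : ι) :
    Measurable fun v : ι → ℝ => ENNReal.ofReal (‖Gr A (fun x => (v x : ℂ) - ζ) a b‖ ^ s) := by
  refine (((measurable_Gr (fun v : ι → ℝ => fun x => (v x : ℂ) - ζ) (fun x => ?_) a
    b).norm).pow_const _).ennreal_ofReal
  exact (Complex.measurable_ofReal.comp (measurable_pi_apply x)).sub_const _

/-- single entries, in terms of `QE` -/
theorem site_eq_QE [IsProbabilityMeasure ρ] {ι : Type*} [Fintype ι] [DecidableEq ι]
    (A : Matrix ι ι ℝ) (a b : ι) :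
    ∫⁻ v, ENNReal.ofReal (‖Gr A (fun x => (v x : ℂ) - ζ) a b‖ ^ p)
      ∂(Measure.pi fun _ : ι => qlaw γ ρ) = QE A γ ζ ρ p Finset.univ {a} {b} := by
  rw [lintegral_qlaw_pi γ ρ (measurable_site A ζ p a b)]
  unfold QE
  refine lintegral_congr fun w => lintegral_congr fun c => ?_
  have h1 : hs (GT A γ w ζ Finset.univ c) {a} {b} = ‖GT A γ w ζ Finset.univ c a b‖ ^ 2 := by
    unfold hs
    rw [Finset.sum_singleton, Finset.sum_singleton]
  rw [h1, sq_rpow_half (norm_nonneg _)]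
  have h2 : (fun x => (((w x + γ * c x : ℝ)) : ℂ) - ζ) = Wt γ w ζ Finset.univ c := by
    funext x
    unfold Wt
    rw [if_pos (Finset.mem_univ x)]
    push_cast
    ring
  unfold GT
  rw [h2]

/-- the constant of the closing step -/
noncomputable def CL (γ p : ℝ) : ℝ := 1 + CK p * (2 * γ) ^ p * (1 / γ) ^ p

theorem CL_nonneg (hγ : 0 < γ) (hp : 0 < p) (hp1 : p < 1) : 0 ≤ CL γ p := by
  have := CK_nonneg hp hp1
  unfold CL
  positivity

theorem card_sub_le (X Y : Finset Site) : (sub X Y).card ≤ Y.card := by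
  refine Finset.card_le_card_of_injOn (fun v => (v : Site)) ?_ ?_
  · intro v hv
    exact mem_sub.1 (Finset.mem_coe.1 hv)
  · intro v _ u _ h
    exact Subtype.ext h

/-- the boundary sum is controlled by the absorbing ball -/
theorem tauL_le_FR [IsProbabilityMeasure ρ] (hγ : 0 < γ) (hζ : 0 < ζ.im) (hp : 0 < p)
    (hp1 : p < 1) (r : ℕ) :
    tauL (qlaw γ ρ) ζ p r ≤ ENNReal.ofReal ((8 * r + 4) * CL γ p) * FR γ ζ ρ p r := by
  have hCL := CL_nonneg hγ hp hp1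
  unfold tauL
  simp only [site_eq_QE]
  obtain ⟨z, hz⟩ : ∃ z : (Bl 0 r : Finset Site), (z : Site) = 0 := by
    refine ⟨⟨0, ?_⟩, rfl⟩
    rw [mem_Bl, ds_self]
    exact Nat.zero_le _
  have hs : sub (Bl 0 r) {0} = {z} := by
    ext x
    rw [mem_sub, Finset.mem_singleton, Finset.mem_singleton, Subtype.ext_iff, hz]
  rw [hs, Finset.sum_singleton]
  have h1 : ∀ b ∈ sub (Bl 0 r) (Sh 0 r), QE (AF (Bl 0 r)) γ ζ ρ p Finset.univ {z} {b} ≤
      ENNReal.ofReal (CL γ p) * FR γ ζ ρ p r := by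
    intro b hb
    refine (QE_close (AF_symm _) hγ hζ hp hp1 ρ (Finset.subset_univ (sub (Bl 0 r) (Sh 0 r))) hb
      {z}).trans ?_
    have h2 : (Finset.univ \ sub (Bl 0 r) (Sh 0 r) : Finset (Bl 0 r : Finset Site)) =
        csub (Bl 0 r) (Sh 0 r) := by
      ext x
      rw [Finset.mem_sdiff, mem_csub, mem_sub]
      simp
    rw [h2]
    unfold FR QR
    rw [hs]
    rfl
  refine (Finset.sum_le_sum h1).trans ?_
  rw [Finset.sum_const, nsmul_eq_mul, ← mul_assoc]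
  refine mul_le_mul_of_nonneg_right ?_ zero_le
  rw [← ENNReal.ofReal_natCast, ← ENNReal.ofReal_mul (by positivity)]
  refine ENNReal.ofReal_le_ofReal (mul_le_mul_of_nonneg_right ?_ hCL)
  have h3 := (card_sub_le (Bl 0 r) (Sh 0 r)).trans (card_Sh_le 0 r)
  exact_mod_cast h3

/-- the annuli are small at large scales -/
theorem GA_small [IsProbabilityMeasure ρ] (hγ : 0 < γ) (hp : 0 < p) (hp1 : p < 1) (E : ℝ)
    (h : OpenThm γ E ρ) {g : ℝ} (hg : 0 < g) :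
    ∃ l0 : ℕ, ∀ l, l0 ≤ l → ∃ e1 : ℝ, 0 < e1 ∧ ∀ η : ℝ, 0 < η → η ≤ e1 →
      GA γ (E + η * I) ρ p l ≤ ENNReal.ofReal g := by
  obtain ⟨C, hC0, hC⟩ : ∃ C : ℝ, 0 < C ∧ C = 32 * (1 + 4 / γ) ^ 4 := ⟨_, by positivity, rfl⟩
  obtain ⟨δ, hδ, hδ'⟩ : ∃ δ : ℝ, 0 < δ ∧ δ ^ (p / 2) ≤ g / 2 := by
    refine ⟨(g / 2) ^ (2 / p), Real.rpow_pos_of_pos (by positivity) _, ?_⟩
    rw [← Real.rpow_mul (by positivity)]
    have : 2 / p * (p / 2) = 1 := by field_simp
    rw [this, Real.rpow_one]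
  obtain ⟨l0, hl0⟩ := h (δ / C) (by positivity)
  refine ⟨l0 + 1, fun l hl => ?_⟩
  obtain ⟨N, hN0, hN, e1, he1, H⟩ := hl0 l (by omega)
  obtain ⟨n, hn⟩ : ∃ n : ℕ, n = (mid N l).card := ⟨_, rfl⟩
  refine ⟨min e1 (γ / (2 * (n + 1))), lt_min he1 (by positivity), fun η hη hη1 => ?_⟩
  have h1 : η ≤ e1 := hη1.trans (min_le_left _ _)
  have h2 : η ≤ γ / (2 * (n + 1)) := hη1.trans (min_le_right _ _)
  rw [le_div_iff₀ (by positivity)] at h2
  have hnR : (0 : ℝ) ≤ n := Nat.cast_nonneg n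
  have h3 : η < γ := by nlinarith
  have h4 : 2 * ((mid N l).card : ℝ) * η ≤ γ := by
    rw [← hn]
    nlinarith
  refine (GA_le (N := N) (l := l) (by omega) (by omega) hγ hp hp1 hη h3 h4 E hδ).trans ?_
  rw [lintegral_open hγ hη E]
  have h5 := H η hη h1
  have h6 : 0 < δ ^ (p / 2 - 1) := Real.rpow_pos_of_pos hδ _
  rw [← hC]
  calc ENNReal.ofReal (δ ^ (p / 2)) + ENNReal.ofReal (δ ^ (p / 2 - 1) * C) *
        ENNReal.ofReal (∫ w, EEp γ (prof N l γ η) (fun x => w x - E)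
        (fun W => hs (Gr (AT N) W) (P365L.ball N l) (outr N l))
        ∂(Measure.pi fun _ : Tor N => ρ))
      ≤ ENNReal.ofReal (δ ^ (p / 2)) + ENNReal.ofReal (δ ^ (p / 2 - 1) * C) *
        ENNReal.ofReal (δ / C) := by
        gcongr
    _ = ENNReal.ofReal (δ ^ (p / 2) + δ ^ (p / 2 - 1) * C * (δ / C)) := by
        rw [← ENNReal.ofReal_mul (by positivity), ← ENNReal.ofReal_add (by positivity)
          (by positivity)]
    _ ≤ ENNReal.ofReal g := by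
        refine ENNReal.ofReal_le_ofReal ?_
        have h7 : δ ^ (p / 2 - 1) * C * (δ / C) = δ ^ (p / 2) := by
          rw [Real.rpow_sub_one hδ.ne']
          field_simp
        rw [h7]
        linarith

/-- superpolynomial decay of the absorbing balls, along a sequence of radii -/
theorem FR_small [IsProbabilityMeasure ρ] (hγ : 0 < γ) (hp : 0 < p) (hp1 : p < 1) (E : ℝ)
    (h : OpenThm γ E ρ) (K : ℕ) (rmin : ℕ) {ε : ℝ} (hε : 0 < ε) :
    ∃ r : ℕ, rmin ≤ r ∧ 1 ≤ r ∧ ∃ η₀ : ℝ, 0 < η₀ ∧ ∀ η : ℝ, 0 < η → η ≤ η₀ →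
      ENNReal.ofReal ((r : ℝ) ^ K) * FR γ (E + η * I) ρ p r ≤ ENNReal.ofReal ε := by
  have hCS := CS_nonneg hγ (show (0 : ℝ) ≤ 4 by norm_num) hp hp1
  have hK0 := K0_nonneg hγ hp hp1
  obtain ⟨g, hg, hg'⟩ : ∃ g : ℝ, 0 < g ∧ CS γ 4 p * g ≤ (1 / 2) ^ (K + 1) := by
    refine ⟨(1 / 2) ^ (K + 1) / (CS γ 4 p + 1), by positivity, ?_⟩
    rw [← mul_div_assoc, div_le_iff₀ (by positivity)]
    have : (0 : ℝ) < (1 / 2) ^ (K + 1) := by positivity
    nlinarith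
  obtain ⟨l0, hl0⟩ := GA_small hγ hp hp1 E h hg
  obtain ⟨r0, hr0⟩ : ∃ r0 : ℕ, r0 = l0 + rmin + 1 := ⟨_, rfl⟩
  obtain ⟨D, hD0, hD⟩ : ∃ D : ℝ, 0 ≤ D ∧ D = ((r0 : ℝ) + 2) ^ K * K0 γ p :=
    ⟨_, by positivity, rfl⟩
  obtain ⟨k, hk⟩ := exists_pow_lt_of_lt_one (show (0 : ℝ) < ε / (D + 1) by positivity)
    (show (1 / 2 : ℝ) < 1 by norm_num)
  choose! e1 he1 he1' using hl0
  obtain ⟨η₀, hη₀, hη₀'⟩ : ∃ η₀ : ℝ, 0 < η₀ ∧ ∀ j, j < k → η₀ ≤ e1 (rk r0 j + 1) := by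
    have hne : (insert (1 : ℝ) ((Finset.range k).image fun j => e1 (rk r0 j + 1))).Nonempty :=
      Finset.insert_nonempty _ _
    refine ⟨(insert (1 : ℝ) ((Finset.range k).image fun j => e1 (rk r0 j + 1))).min' hne, ?_, ?_⟩
    · rw [Finset.lt_min'_iff]
      intro x hx
      rw [Finset.mem_insert, Finset.mem_image] at hx
      rcases hx with rfl | ⟨j, hj, rfl⟩
      · exact one_pos
      · refine he1 _ ?_
        have := le_rk r0 j
        omega
    · intro j hj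
      refine Finset.min'_le _ _ ?_
      exact Finset.mem_insert_of_mem (Finset.mem_image_of_mem _ (Finset.mem_range.2 hj))
  have hrk := le_rk r0 k
  refine ⟨rk r0 k, by omega, by omega, η₀, hη₀, fun η hη hη1 => ?_⟩
  have hζ : (0 : ℝ) < ((E : ℂ) + η * I).im := by simpa using hη
  have hFR := FR_chain (ρ := ρ) hγ hζ hp hp1 (show 1 ≤ r0 by omega) hg.le k (fun j hj =>
    he1' (rk r0 j + 1) (by
      have := le_rk r0 j
      omega) η hη (hη1.trans (hη₀' j hj)))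
  refine (mul_le_mul_of_nonneg_left hFR zero_le).trans ?_
  rw [← ENNReal.ofReal_mul (by positivity)]
  refine ENNReal.ofReal_le_ofReal ?_
  have h1 : (rk r0 k : ℝ) ≤ 2 ^ k * (r0 + 2) := by
    have : ((rk r0 k + 2 : ℕ) : ℝ) = ((2 ^ k * (r0 + 2) : ℕ) : ℝ) := by rw [rk_eq]
    push_cast at this
    linarith
  have h2 : (rk r0 k : ℝ) ^ K ≤ (2 ^ k * (r0 + 2)) ^ K := pow_le_pow_left₀ (by positivity) h1 K
  have h3 : (CS γ 4 p * g) ^ k ≤ ((1 / 2) ^ (K + 1)) ^ k := pow_le_pow_left₀ (by positivity) hg' k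
  calc (rk r0 k : ℝ) ^ K * ((CS γ 4 p * g) ^ k * K0 γ p)
      ≤ (2 ^ k * (r0 + 2)) ^ K * (((1 / 2) ^ (K + 1)) ^ k * K0 γ p) := by gcongr
    _ = D * (1 / 2) ^ k := by
        rw [hD]
        have e1 : ((2 : ℝ) ^ k * (r0 + 2)) ^ K = (2 ^ k) ^ K * (r0 + 2) ^ K := mul_pow _ _ _
        have e2 : (((1 : ℝ) / 2) ^ (K + 1)) ^ k = ((1 / 2) ^ k) ^ K * (1 / 2) ^ k := by
          rw [← pow_mul, ← pow_mul, ← pow_add]
          congr 1
          ring
        have e3 : ((2 : ℝ) ^ k) ^ K * ((1 / 2) ^ k) ^ K = 1 := by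
          rw [← mul_pow, ← mul_pow]
          norm_num
        rw [e1, e2]
        calc (2 ^ k) ^ K * ((r0 : ℝ) + 2) ^ K * (((1 / 2) ^ k) ^ K * (1 / 2) ^ k * K0 γ p)
            = ((2 ^ k) ^ K * ((1 / 2) ^ k) ^ K) * (((r0 : ℝ) + 2) ^ K * K0 γ p * (1 / 2) ^ k) := by
              ring
          _ = _ := by rw [e3, one_mul]
    _ ≤ D * (ε / (D + 1)) := mul_le_mul_of_nonneg_left hk.le hD0
    _ ≤ ε := by
        rw [← mul_div_assoc, div_le_iff₀ (by positivity)]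
        nlinarith

/-- **(T1)** the boundary sum of a closed ball beats every power of the radius -/
theorem tauL_small [IsProbabilityMeasure ρ] (hγ : 0 < γ) (hp : 0 < p) (hp1 : p < 1) (E : ℝ)
    (h : OpenThm γ E ρ) (K : ℕ) (rmin : ℕ) {ε : ℝ} (hε : 0 < ε) :
    ∃ r : ℕ, rmin ≤ r ∧ 1 ≤ r ∧ ∃ η₀ : ℝ, 0 < η₀ ∧ ∀ η : ℝ, 0 < η → η ≤ η₀ →
      ENNReal.ofReal ((r : ℝ) ^ K) * tauL (qlaw γ ρ) (E + η * I) p r ≤ ENNReal.ofReal ε := by
  have hCL := CL_nonneg hγ hp hp1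
  obtain ⟨r, h1, h2, η₀, hη₀, H⟩ := FR_small hγ hp hp1 E h (K + 1) rmin
    (show 0 < ε / (12 * CL γ p + 1) by positivity)
  refine ⟨r, h1, h2, η₀, hη₀, fun η hη hη1 => ?_⟩
  have hζ : (0 : ℝ) < ((E : ℂ) + η * I).im := by simpa using hη
  have hr : (1 : ℝ) ≤ r := by exact_mod_cast h2
  calc ENNReal.ofReal ((r : ℝ) ^ K) * tauL (qlaw γ ρ) (E + η * I) p r
      ≤ ENNReal.ofReal ((r : ℝ) ^ K) * (ENNReal.ofReal ((8 * r + 4) * CL γ p) *
          FR γ (E + η * I) ρ p r) :=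
        mul_le_mul_of_nonneg_left (tauL_le_FR hγ hζ hp hp1 r) zero_le
    _ ≤ ENNReal.ofReal (12 * CL γ p) * (ENNReal.ofReal ((r : ℝ) ^ (K + 1)) *
          FR γ (E + η * I) ρ p r) := by
        rw [← mul_assoc, ← mul_assoc, ← ENNReal.ofReal_mul (by positivity),
          ← ENNReal.ofReal_mul (by positivity)]
        refine mul_le_mul_of_nonneg_right (ENNReal.ofReal_le_ofReal ?_) zero_le
        have h3 : 8 * (r : ℝ) + 4 ≤ 12 * r := by linarith
        calc (r : ℝ) ^ K * ((8 * r + 4) * CL γ p) ≤ (r : ℝ) ^ K * ((12 * r) * CL γ p) := by gcongr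
          _ = 12 * CL γ p * (r : ℝ) ^ (K + 1) := by ring
    _ ≤ ENNReal.ofReal (12 * CL γ p) * ENNReal.ofReal (ε / (12 * CL γ p + 1)) :=
        mul_le_mul_of_nonneg_left (H η hη hη1) zero_le
    _ ≤ ENNReal.ofReal ε := by
        rw [← ENNReal.ofReal_mul (by positivity)]
        refine ENNReal.ofReal_le_ofReal ?_
        rw [← mul_div_assoc, div_le_iff₀ (by positivity)]
        nlinarith

/-- **(T2)** domination -/
theorem tauL_dom {m m' : Measure ℝ} [IsProbabilityMeasure m] [IsProbabilityMeasure m']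
    {C : ℝ≥0∞} (h : m ≤ C • m') (ζ : ℂ) (s : ℝ) (r : ℕ) :
    tauL m ζ s r ≤ C ^ (Bl 0 r).card * tauL m' ζ s r := by
  unfold tauL
  rw [Finset.mul_sum]
  refine Finset.sum_le_sum fun a _ => ?_
  rw [Finset.mul_sum]
  refine Finset.sum_le_sum fun b _ => ?_
  refine (lintegral_pi_dom h (measurable_site (AF (Bl 0 r)) ζ s a b)).trans (le_of_eq ?_)
  rw [Fintype.card_coe]

/-- a real shift of the energy is a shift of the law -/
theorem tauL_shift {m : Measure ℝ} [IsProbabilityMeasure m] (ζ : ℂ) (d : ℝ) (s : ℝ) (r : ℕ) :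
    tauL m (ζ - d) s r = tauL (m.map fun t => t + d) ζ s r := by
  unfold tauL
  haveI : IsProbabilityMeasure (m.map fun t => t + d) :=
    Measure.isProbabilityMeasure_map (measurable_add_const d).aemeasurable
  refine Finset.sum_congr rfl fun a _ => Finset.sum_congr rfl fun b _ => ?_
  have h1 : MeasurePreserving (fun (v : (Bl 0 r : Finset Site) → ℝ) i => v i + d)
      (Measure.pi fun _ => m) (Measure.pi fun _ => m.map fun t => t + d) :=
    measurePreserving_pi _ _ fun i => ⟨measurable_add_const d, rfl⟩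
  rw [← h1.lintegral_comp (measurable_site (AF (Bl 0 r)) ζ s a b)]
  refine lintegral_congr fun v => ?_
  have h2 : (fun x => (v x : ℂ) - (ζ - d)) = fun x => (((v x + d : ℝ)) : ℂ) - ζ := by
    funext x
    push_cast
    ring
  rw [h2]

/-- **(T3)** the energy window -/
theorem tauL_window [IsProbabilityMeasure ρ] (hγ : 0 < γ) (E E' η : ℝ) (s : ℝ) (r : ℕ) :
    tauL (qlaw γ ρ) (E' + η * I) s r ≤
      ENNReal.ofReal ((1 + |E' - E| / γ) ^ 2) ^ (Bl 0 r).card *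
        tauL (qlaw γ ρ) (E + η * I) s r := by
  have h1 : ((E' : ℂ) + η * I) = (E + η * I) - ((E - E' : ℝ) : ℂ) := by
    push_cast
    ring
  rw [h1, tauL_shift]
  haveI : IsProbabilityMeasure ((qlaw γ ρ).map fun t => t + (E - E')) :=
    Measure.isProbabilityMeasure_map (measurable_add_const _).aemeasurable
  rw [abs_sub_comm E' E]
  exact tauL_dom (qlaw_shift_le hγ ρ (E - E')) _ s r

end P365L.Comp
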