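import Vale.Agent.P365.Comp.Scale
import Vale.Agent.P365.Torus.Base

set_option linter.all false

/-!
# P365 / Comp / Tor: the annulus inside the torus; comparison of the cut annulus with the torus.
-/

namespace P365L.Comp

open MeasureTheory ProbabilityTheory Complex P365S6
open P365L
open scoped ENNReal

section general

variable {ι : Type*} [Fintype ι] [DecidableEq ι]
variable {A A' : Matrix ι ι ℝ} {W W' : ι → ℂ} {γ τ : ℝ}

theorem hs_insens_left (hA : A.IsSymm) (hA' : A'.IsSymm) (hW : ∀ x, (W x).im < 0)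
    (hW' : ∀ x, (W' x).im < 0) (hγ : 0 < γ) (hτ : 0 ≤ τ) {I L B : Finset ι} (hI : I ⊆ L)
    (hL : ∀ x ∈ L, (W' x).im ≤ -γ) (hT : Local A A' W W' L τ) :
    hs (Gr A' W') I B ≤ (1 + τ / γ) ^ 2 * hs (Gr A W) L B :=
  (hs_mono _ hI (Finset.Subset.refl _)).trans (insens_hs hA hA' hW hW' hγ hτ hL hT B)

/-- cutting along two absorbing double layers -/
theorem hs_cut_cut (hA : A.IsSymm) (hW : ∀ x, (W x).im < 0) (hγ : 0 < γ) (hτ : 0 ≤ τ)
    (hb : ∀ x, ∑ y, |A x y| ≤ τ) {R1 R2 L1 L2 I1 I2 O1 O2 : Finset ι}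
    (hL1 : ∀ x y, x ∈ R1 → y ∉ R1 → A x y ≠ 0 → x ∈ L1 ∧ y ∈ L1)
    (hL2 : ∀ x y, x ∈ R2 → y ∉ R2 → A x y ≠ 0 → x ∈ L2 ∧ y ∈ L2)
    (h1 : ∀ x ∈ L1, (W x).im ≤ -γ) (h2 : ∀ x ∈ L2, (W x).im ≤ -γ)
    (hI1 : I1 ⊆ L1) (hI2 : I2 ⊆ L2) (hO1 : L1 ⊆ O1) (hO2 : L2 ⊆ O2) :
    hs (Gr (cut (cut A R1) R2) W) I1 I2 ≤
      (1 + τ / γ) ^ 2 * ((1 + τ / γ) ^ 2 * hs (Gr A W) O1 O2) := by
  have hA1 := cut_symm hA R1
  have hA2 := cut_symm hA1 R2
  have hb1 : ∀ x, ∑ y, |cut A R1 x y| ≤ τ := by
    intro x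
    refine le_trans (Finset.sum_le_sum fun y _ => ?_) (hb x)
    unfold cut
    split_ifs
    · exact le_rfl
    · rw [abs_zero]
      exact abs_nonneg _
  have hloc1 := cut_local hA R1 hτ hL1 hb W
  have hloc2 : Local (cut A R1) (cut (cut A R1) R2) W W L2 τ := by
    refine cut_local hA1 R2 hτ ?_ hb1 W
    intro x y hx hy hxy
    refine hL2 x y hx hy ?_
    intro h0
    apply hxy
    unfold cut
    rw [h0]
    simp
  have e1 : hs (Gr (cut (cut A R1) R2) W) I1 I2 = hs (Gr (cut (cut A R1) R2) W) I2 I1 :=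
    hs_comm (fun x y => Gr_symm hA2 x y) _ _
  have e2 := hs_insens_left hA1 hA2 hW hW hγ hτ (B := I1) hI2 h2 hloc2
  have e3 : hs (Gr (cut A R1) W) L2 I1 = hs (Gr (cut A R1) W) I1 L2 :=
    hs_comm (fun x y => Gr_symm hA1 x y) _ _
  have e4 := hs_insens_left hA hA1 hW hW hγ hτ (B := L2) hI1 h1 hloc1
  have e5 := hs_mono (Gr A W) hO1 hO2
  have h0 : 0 ≤ (1 + τ / γ) ^ 2 := sq_nonneg _
  rw [e1]
  refine e2.trans (mul_le_mul_of_nonneg_left ?_ h0)
  rw [e3]
  exact e4.trans (mul_le_mul_of_nonneg_left e5 h0)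

/-- changing the potential on two disjoint absorbing sets -/
theorem hs_pot_pot (hA : A.IsSymm) (hW : ∀ x, (W x).im < 0) (hW' : ∀ x, (W' x).im < 0)
    (hγ : 0 < γ) (hτ : 0 ≤ τ) {O1 O2 : Finset ι} (hO : Disjoint O1 O2)
    (h0 : ∀ x, x ∉ O1 → x ∉ O2 → W' x = W x) (h1 : ∀ x, ‖W' x - W x‖ ≤ τ)
    (ha1 : ∀ x ∈ O1, (W x).im ≤ -γ) (ha2 : ∀ x ∈ O2, (W x).im ≤ -γ) :
    hs (Gr A W) O1 O2 ≤ (1 + τ / γ) ^ 2 * ((1 + τ / γ) ^ 2 * hs (Gr A W') O1 O2) := by
  obtain ⟨V, hV⟩ : ∃ V : ι → ℂ, V = fun x => if x ∈ O1 then W' x else W x := ⟨_, rfl⟩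
  have hVim : ∀ x, (V x).im < 0 := by
    intro x
    rw [hV]
    show (if x ∈ O1 then W' x else W x).im < 0
    split_ifs
    · exact hW' x
    · exact hW x
  have hl1 : Local A A V W O1 τ := by
    refine Local.of_pot hτ ?_ ?_
    · intro x hx
      rw [hV]
      simp only [if_neg hx]
    · intro x hx
      rw [hV]
      simp only [if_pos hx]
      exact h1 x
  have hl2 : Local A A W' V O2 τ := by
    refine Local.of_pot hτ ?_ ?_
    · intro x hx
      rw [hV]
      by_cases h : x ∈ O1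
      · simp only [if_pos h]
      · simp only [if_neg h]
        exact h0 x h hx
    · intro x hx
      rw [hV]
      by_cases h : x ∈ O1
      · simp only [if_pos h, sub_self, norm_zero]
        exact hτ
      · simp only [if_neg h]
        exact h1 x
  have hV2 : ∀ x ∈ O2, (V x).im ≤ -γ := by
    intro x hx
    have h : x ∉ O1 := fun h => (Finset.disjoint_left.1 hO) h hx
    rw [hV]
    simp only [if_neg h]
    exact ha2 x hx
  have e1 := hs_insens_left hA hA hVim hW hγ hτ (B := O2) (Finset.Subset.refl O1) ha1 hl1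
  have e2 := hs_insens_left hA hA hW' hVim hγ hτ (B := O1) (Finset.Subset.refl O2) hV2 hl2
  rw [hs_comm (fun x y => Gr_symm hA x y) O2 O1, hs_comm (fun x y => Gr_symm hA x y) O2 O1] at e2
  exact e1.trans (mul_le_mul_of_nonneg_left e2 (sq_nonneg _))

end general

/-! ### the annulus in the torus -/

section torus

variable {N : ℕ} [NeZero N] {l : ℕ}

/-- outer absorbing region -/
def outr (N : ℕ) [NeZero N] (l : ℕ) : Finset (Tor N) := Finset.univ.filter fun x => 2 * l ≤ nrm x

/-- closed region between the absorbers -/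
def mid (N : ℕ) [NeZero N] (l : ℕ) : Finset (Tor N) :=
  Finset.univ.filter fun x => l < nrm x ∧ nrm x < 2 * l

theorem mem_outr {x : Tor N} : x ∈ outr N l ↔ 2 * l ≤ nrm x := by simp [outr]

theorem mem_mid {x : Tor N} : x ∈ mid N l ↔ l < nrm x ∧ nrm x < 2 * l := by simp [mid]

theorem AT_row (x : Tor N) : ∑ y, |AT N x y| ≤ 4 := by
  refine le_trans (le_of_eq (Finset.sum_congr rfl fun y _ => abs_of_nonneg (AT_nonneg x y))) ?_
  exact row_sum_le x

/-- the doubly cut adjacency matrix -/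
noncomputable def A2 (N : ℕ) [NeZero N] (l : ℕ) : Matrix (Tor N) (Tor N) ℝ :=
  cut (cut (AT N) (Finset.univ.filter fun x => nrm x < l)) (P365L.ball N (2 * l))

theorem A2_symm : (A2 N l).IsSymm := cut_symm (cut_symm (AT_symm N) _) _

theorem A2_apply (x y : Tor N) : A2 N l x y =
    if (nrm x ≤ 2 * l ↔ nrm y ≤ 2 * l) then (if (nrm x < l ↔ nrm y < l) then AT N x y else 0)
      else 0 := by
  unfold A2 cut
  simp only [mem_ball, Finset.mem_filter, Finset.mem_univ, true_and]

variable {γ η : ℝ}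

theorem hs_A2 (hγ : 0 < γ) {W : Tor N → ℂ} (hW : ∀ x, (W x).im < 0)
    (h1 : ∀ x, nrm x ≤ l → (W x).im ≤ -γ) (h2 : ∀ x, 2 * l ≤ nrm x → (W x).im ≤ -γ) :
    hs (Gr (A2 N l) W) (layer N l) (layer N (2 * l)) ≤
      (1 + 4 / γ) ^ 4 * hs (Gr (AT N) W) (P365L.ball N l) (outr N l) := by
  have h := hs_cut_cut (A := AT N) (W := W) (γ := γ) (τ := 4) (AT_symm N) hW hγ (by norm_num)
    AT_row (R1 := Finset.univ.filter fun x => nrm x < l) (R2 := P365L.ball N (2 * l))
    (L1 := Finset.univ.filter fun x => nrm x + 1 = l ∨ nrm x = l)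
    (L2 := Finset.univ.filter fun x => nrm x = 2 * l ∨ nrm x = 2 * l + 1)
    (I1 := layer N l) (I2 := layer N (2 * l)) (O1 := P365L.ball N l) (O2 := outr N l)
    (by
      intro x y hx hy hxy
      have e1 := nrm_adj hxy
      have e2 := nrm_adj' hxy
      simp only [Finset.mem_filter, Finset.mem_univ, true_and] at hx hy ⊢
      omega)
    (by
      intro x y hx hy hxy
      have e1 := nrm_adj hxy
      have e2 := nrm_adj' hxy
      rw [mem_ball] at hx hy
      simp only [Finset.mem_filter, Finset.mem_univ, true_and]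
      omega)
    (by
      intro x hx
      simp only [Finset.mem_filter, Finset.mem_univ, true_and] at hx
      exact h1 x (by omega))
    (by
      intro x hx
      simp only [Finset.mem_filter, Finset.mem_univ, true_and] at hx
      exact h2 x (by omega))
    (by
      intro x hx
      rw [mem_layer] at hx
      simp only [Finset.mem_filter, Finset.mem_univ, true_and]
      omega)
    (by
      intro x hx
      rw [mem_layer] at hx
      simp only [Finset.mem_filter, Finset.mem_univ, true_and]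
      omega)
    (by
      intro x hx
      simp only [Finset.mem_filter, Finset.mem_univ, true_and] at hx
      rw [mem_ball]
      omega)
    (by
      intro x hx
      simp only [Finset.mem_filter, Finset.mem_univ, true_and] at hx
      rw [mem_outr]
      omega)
  refine h.trans (le_of_eq ?_)
  ring

/-- the comparison potential (absorption exactly `γ` on the open sites), noise `c'` -/
noncomputable def Wn (N : ℕ) [NeZero N] (l : ℕ) (γ E η : ℝ) (w c' : Tor N → ℝ) (x : Tor N) : ℂ :=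
  ((w x - E : ℝ) : ℂ) + if x ∈ mid N l then (c' x : ℂ) - η * I else -(γ * I)

theorem hs_pointwise (hl : 1 ≤ l) (hγ : 0 < γ) (hη : 0 < η) (hηγ : η ≤ γ) (E : ℝ)
    (w c : Tor N → ℝ) :
    hs (GT (A2 N l) γ w (E + η * I) (mid N l) c) (layer N l) (layer N (2 * l)) ≤
      (16 * (1 + 4 / γ) ^ 4) *
        hs (Gr (AT N) (Wn N l γ E η w fun x => γ * c x)) (P365L.ball N l) (outr N l) := by
  have hζ : (0 : ℝ) < ((E : ℂ) + η * I).im := by simpa using hη
  have him : ((E : ℂ) + η * I).im = η := by simp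
  have hW := fun x => Wt_im_neg (U := w) hγ hζ (mid N l) c x
  have habs : ∀ x, x ∉ mid N l → (Wt γ w (E + η * I) (mid N l) c x).im ≤ -γ := by
    intro x hx
    exact Wt_abs_le hγ hζ w c (mid N l) hx
  have hin : ∀ x : Tor N, nrm x ≤ l → x ∉ mid N l := by
    intro x hx h
    rw [mem_mid] at h
    omega
  have hout : ∀ x : Tor N, 2 * l ≤ nrm x → x ∉ mid N l := by
    intro x hx h
    rw [mem_mid] at h
    omega
  have e1 := hs_A2 (l := l) hγ hW (fun x hx => habs x (hin x hx)) (fun x hx => habs x (hout x hx))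
  have hW' : ∀ x, (Wn N l γ E η w (fun x => γ * c x) x).im < 0 := by
    intro x
    unfold Wn
    split_ifs
    · simp [hη]
    · simp [hγ]
  have hdis : Disjoint (P365L.ball N l) (outr N l) := by
    refine Finset.disjoint_left.2 fun x hx hx' => ?_
    rw [mem_ball] at hx
    rw [mem_outr] at hx'
    omega
  have e2 := hs_pot_pot (A := AT N) (W := Wt γ w (E + η * I) (mid N l) c)
    (W' := Wn N l γ E η w fun x => γ * c x) (γ := γ) (τ := η) (AT_symm N) hW hW' hγ hη.le
    (O1 := P365L.ball N l) (O2 := outr N l) hdis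
    (by
      intro x hx1 hx2
      rw [mem_ball] at hx1
      rw [mem_outr] at hx2
      have hx : x ∈ mid N l := by
        rw [mem_mid]
        omega
      unfold Wn Wt
      rw [if_pos hx, if_pos hx]
      push_cast
      ring)
    (by
      intro x
      unfold Wn Wt
      by_cases hx : x ∈ mid N l
      · rw [if_pos hx, if_pos hx]
        have : ((w x - E : ℝ) : ℂ) + (((γ * c x : ℝ) : ℂ) - η * I) -
            ((w x : ℂ) + γ * (c x : ℂ) - (E + η * I)) = 0 := by
          push_cast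
          ring
        rw [this, norm_zero]
        exact hη.le
      · rw [if_neg hx, if_neg hx]
        have : ((w x - E : ℝ) : ℂ) + -(γ * I) - ((w x : ℂ) + γ * (-I) - (E + η * I)) =
            η * I := by
          push_cast
          ring
        rw [this, norm_mul, Complex.norm_I, mul_one, Complex.norm_real, Real.norm_of_nonneg hη.le])
    (fun x hx => habs x (hin x (mem_ball.1 hx))) (fun x hx => habs x (hout x (mem_outr.1 hx)))
  have hr : (1 + η / γ) ^ 2 ≤ 4 := by
    have h1 : η / γ ≤ 1 := (div_le_one hγ).2 hηγ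
    have h2 : 0 ≤ η / γ := by positivity
    nlinarith
  have hr0 : (0 : ℝ) ≤ (1 + η / γ) ^ 2 := sq_nonneg _
  have hn := hs_nonneg (Gr (AT N) (Wn N l γ E η w fun x => γ * c x)) (P365L.ball N l) (outr N l)
  have h4 : (0 : ℝ) ≤ (1 + 4 / γ) ^ 4 := by positivity
  calc hs (GT (A2 N l) γ w (E + η * I) (mid N l) c) (layer N l) (layer N (2 * l))
      ≤ (1 + 4 / γ) ^ 4 * ((1 + η / γ) ^ 2 * ((1 + η / γ) ^ 2 *
          hs (Gr (AT N) (Wn N l γ E η w fun x => γ * c x)) (P365L.ball N l) (outr N l))) :=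
        e1.trans (mul_le_mul_of_nonneg_left e2 h4)
    _ ≤ (1 + 4 / γ) ^ 4 * (4 * (4 *
          hs (Gr (AT N) (Wn N l γ E η w fun x => γ * c x)) (P365L.ball N l) (outr N l))) := by
        refine mul_le_mul_of_nonneg_left ?_ h4
        exact mul_le_mul hr (mul_le_mul_of_nonneg_right hr hn) (mul_nonneg hr0 hn) (by norm_num)
    _ = _ := by ring

end torus

end P365L.Comp
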